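import Vale.Agent.P286E38.No
import Vale.Agent.P286E99.B0

/-!
The invariant part of the tensor product of the Weyl algebra with the ghosts, compared with the
operators on the line.
-/

set_option autoImplicit false
set_option linter.all false

namespace Vale.Agent.P286E38

open Vale.Agent.P286EI Vale.Agent.P286EK Vale.Agent.P286E48 Vale.Agent.P286E99
open Vale.Agent.P286EX (Ivl E4 Ext4)

noncomputable section

/-- The map to the even operators. -/
abbrev pT : UU →ₐ[ℂ] Dt := p0 Dt.d_t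

theorem w0_pT (u : UU) : w0.f (pT u) = pT u := by
  induction u using UU.ind with
  | h0 c => rw [AlgHom.commutes, AlgHom.commutes]
  | hq => rw [p0_q, map_mul, w0_t, neg_mul_neg]
  | hE => rw [p0_E, map_sub, map_mul, w0_t, w0_d, neg_mul_neg, map_one]
  | hL => rw [p0_L, map_mul, w0_d, neg_mul_neg]
  | add a b ha hb => rw [map_add, map_add, ha, hb]
  | mul a b ha hb => rw [map_mul, map_mul, ha, hb]

/-- The odd operators. -/
def od (a b : UU) : Dt := pT a * Dt.t + pT b * Dt.d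

theorem w0_od (a b : UU) : w0.f (od a b) = -od a b := by
  rw [od, map_add, map_mul, map_mul, w0_pT, w0_pT, w0_t, w0_d, mul_neg, mul_neg, neg_add]

theorem ker_pT {u : UU} (h : pT u = 0) : ∃ v, u = v * UU.Om :=
  ker_p0 Dt.d_t (Dt.lift sT sD sD_sT) (Dt.lift_t _ _ _) (Dt.lift_d _ _ _) h

theorem od_ker {a b : UU} (h : od a b = 0) :
    ∃ u v, a = v * UU.L - u * UU.E ∧ b = u * UU.q - v * (UU.E + 3) := by
  obtain ⟨u, hu⟩ := ker_pT (u := a * (UU.E + 1) + b * UU.L) (by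
    have : pT (a * (UU.E + 1) + b * UU.L) = od a b * Dt.d := by
      simp only [od, map_add, map_mul, map_one, p0_E, p0_L]
      noncomm_ring
    rw [this, h, zero_mul])
  obtain ⟨v, hv⟩ := ker_pT (u := a * UU.q + b * (UU.E + 2)) (by
    have : pT (a * UU.q + b * (UU.E + 2)) = od a b * Dt.t := by
      simp only [od, map_add, map_mul, map_ofNat, p0_E, p0_q, add_mul, mul_assoc, Dt.d_t]
      noncomm_ring
    rw [this, h, zero_mul])
  exact ⟨u, v, mf_ker hu hv⟩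

theorem od_zero (a b : UU) : od (a * UU.E + b * UU.L) (-(a * UU.q) - b * (UU.E + 3)) = 0 := by
  have e : ∀ z, Dt.d * (Dt.t * z) = Dt.t * (Dt.d * z) + z := fun z => by
    rw [← mul_assoc, Dt.d_t, add_mul, one_mul, mul_assoc]
  simp only [od, map_add, map_sub, map_neg, map_mul, map_ofNat, p0_E, p0_q, p0_L, add_mul, mul_add,
    sub_mul, mul_sub, neg_mul, mul_assoc, e, Dt.d_t, one_mul, mul_one]
  noncomm_ring

/-- The elements of the corner. -/
def pk : Dt × Dt →ₗ[ℂ] E4 w0 where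
  toFun z := (1 / 2 : ℂ) • ⟨z.1, z.1, z.2, z.2⟩
  map_add' y z := by ext <;> simp
  map_smul' c z := by ext <;> simp [smul_comm c]

theorem pk_apply (y z : Dt) : pk (y, z) = (1 / 2 : ℂ) • ⟨y, y, z, z⟩ := rfl

theorem hf (x : Dt) : (1 / 2 : ℂ) • (1 / 2 : ℂ) • x + (1 / 2 : ℂ) • (1 / 2 : ℂ) • x =
    (1 / 2 : ℂ) • x := by module

theorem pk_mul (y z : Dt) {y' z' : Dt} (h1 : w0.f y' = y') (h2 : w0.f z' = -z') :
    pk (y, z) * pk (y', z') = pk (y * y', y * z' + z * y') := by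
  ext <;> simp only [pk_apply, E4.mul_a, E4.mul_b, E4.mul_c, E4.mul_e, E4.smul_a, E4.smul_b,
    E4.smul_c, E4.smul_e, map_smul, h1, h2, smul_mul_assoc, mul_smul_comm, mul_neg, smul_neg,
    smul_add] <;> module

theorem pk_one : pk (1, 0) = (1 / 2 : ℂ) • (1 + E4.w w0) := by
  ext <;> simp [pk_apply, E4.w]

theorem pk_inj {y z : Dt} (h : pk (y, z) = 0) : y = 0 ∧ z = 0 :=
  ⟨by simpa [pk_apply] using congrArg E4.a h, by simpa [pk_apply] using congrArg E4.c h⟩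

theorem pk_cut (b : E4 w0) : pk (1, 0) * (b * pk (1, 0)) =
    pk ((1 / 2 : ℂ) • (b.a + b.b + w0.f (b.a + b.b)),
      (1 / 2 : ℂ) • (b.c + b.e - w0.f (b.c + b.e))) := by
  ext <;> simp only [pk_apply, E4.mul_a, E4.mul_b, E4.mul_c, E4.mul_e, E4.smul_a, E4.smul_b,
    E4.smul_c, E4.smul_e, map_smul, map_add, map_sub, map_one, map_zero, smul_mul_assoc,
    mul_smul_comm, mul_one, one_mul, mul_zero, zero_mul, smul_zero, smul_add, smul_sub] <;> module

theorem io_pk (y : Dt) : E4.io w0 y * pk (1, 0) = pk (y, 0) := by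
  ext <;> simp [pk_apply, E4.io_apply]

theorem pk_io {y : Dt} (h : w0.f y = y) : pk (1, 0) * E4.io w0 y = pk (y, 0) := by
  ext <;> simp [pk_apply, E4.io_apply, h]

theorem ev_od (z : Dt) : ∃ a b c, (1 / 2 : ℂ) • (z + w0.f z) = pT a ∧
    (1 / 2 : ℂ) • (z - w0.f z) = od b c := by
  obtain ⟨a, b, c, e⟩ := line_span Dt.d_t (fun P => Dt.ind (P := P)) z
  change z = pT a + od b c at e
  refine ⟨a, b, c, ?_, ?_⟩ <;> rw [e, map_add, w0_pT, w0_od] <;> module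

variable {D : Type} [Ring D] [Algebra ℂ D]

namespace WY

variable (W : WY D)

/-- The covariant with given coefficients. -/
def cv (a b c : UU) : Fin 3 → D := fun s => W.φ a * W.x s + W.φ b * W.d s + W.φ c * W.l s

theorem cov_cv (a b c : UU) : W.Cov (W.cv a b c) := fun k s => by
  have e : ∀ (u : UU) (z : D), W.l k * (W.φ u * z) - W.φ u * z * W.l k =
      W.φ u * (W.l k * z - z * W.l k) := fun u z => by
    rw [← mul_assoc, l_φ, mul_sub, mul_assoc, mul_assoc]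
  have e2 : W.l k * W.cv a b c s - W.cv a b c s * W.l k = W.φ a * L3.cx ℂ D k W.x s +
      W.φ b * L3.cx ℂ D k W.d s + W.φ c * L3.cx ℂ D k W.l s := by
    rw [← W.cov_x, ← W.cov_d, ← W.cov_l, ← e, ← e, ← e, cv]
    noncomm_ring
  rw [e2]
  fin_cases k <;> fin_cases s <;> simp [L3.cx_apply, cv] <;> abel

theorem cv_zero : W.cv 0 0 0 = 0 := funext fun s => by simp [cv]

theorem exists_ψ0 : ∃ ψ : D →ₗ[ℂ] Dt, ∀ u, ψ (W.φ u) = pT u := by
  obtain ⟨g, hg⟩ := LinearMap.exists_leftInverse_of_injective W.φ.toLinearMap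
    (LinearMap.ker_eq_bot'.2 fun _ => W.φ_inj)
  exact ⟨pT.toLinearMap.comp g, fun u => congrArg pT (LinearMap.congr_fun hg u)⟩

theorem exists_ψ1 : ∃ ψ : (Fin 3 → D) →ₗ[ℂ] Dt, ∀ a b c, ψ (W.cv a b c) = od a b := by
  let f : UU × UU × UU →ₗ[ℂ] (Fin 3 → D) :=
    { toFun := fun z => W.cv z.1 z.2.1 z.2.2
      map_add' := fun y z => funext fun s => by
        simp only [cv, Prod.fst_add, Prod.snd_add, map_add, add_mul, Pi.add_apply]
        abel
      map_smul' := fun r z => funext fun s => by simp [cv] }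
  let k : UU × UU × UU →ₗ[ℂ] Dt :=
    { toFun := fun z => od z.1 z.2.1
      map_add' := fun y z => by
        simp only [od, Prod.fst_add, Prod.snd_add, map_add, add_mul]
        abel
      map_smul' := fun r z => by simp [od] }
  obtain ⟨g, hg⟩ := LinearMap.exists_leftInverse_of_injective f
    (LinearMap.ker_eq_bot'.2 fun z h => by
      have := W.free (congrFun h)
      exact Prod.ext this.1 (Prod.ext this.2.1 this.2.2))
  exact ⟨k.comp g, fun a b c => congrArg k (LinearMap.congr_fun hg (a, b, c))⟩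

/-- The radial part. -/
def ψ0 : D →ₗ[ℂ] Dt := W.exists_ψ0.choose

theorem ψ0_φ (u : UU) : W.ψ0 (W.φ u) = pT u := W.exists_ψ0.choose_spec u

/-- The radial part of a covariant. -/
def ψ1 : (Fin 3 → D) →ₗ[ℂ] Dt := W.exists_ψ1.choose

theorem ψ1_cv (a b c : UU) : W.ψ1 (W.cv a b c) = od a b := W.exists_ψ1.choose_spec a b c

theorem ψ1_mul (u a b c u' a' b' c' : UU) :
    W.ψ1 (fun s => W.φ u * W.cv a' b' c' s + W.cv a b c s * W.φ u') =
      pT u * od a' b' + od a b * pT u' := by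
  obtain ⟨α, β, γ, δ, e⟩ := vec_mul u'
  have e1 : (fun s => W.φ u * W.cv a' b' c' s + W.cv a b c s * W.φ u') =
      W.cv (u * a' + (a * α + b * γ)) (u * b' + (a * β + b * δ)) (u * c' + c * u') :=
    funext fun s => by
      simp only [cv, map_add, map_mul, add_mul, mul_assoc, (e D W.φ _ _ (W.vec s)).1,
        (e D W.φ _ _ (W.vec s)).2, l_φ]
      noncomm_ring
  rw [e1, ψ1_cv]
  simp only [od, map_add, map_mul, add_mul, mul_assoc, (e Dt pT _ _ (vec_line Dt.d_t)).1,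
    (e Dt pT _ _ (vec_line Dt.d_t)).2]
  noncomm_ring

/-- The differential on the covariants of degree `-2`. -/
def dv (w : Fin 3 → D) : Fin 3 → D :=
  ![w 1 * W.l 2 - w 2 * W.l 1 + w 0, w 2 * W.l 0 - w 0 * W.l 2 + w 1,
    w 0 * W.l 1 - w 1 * W.l 0 + w 2]

theorem dv_x (s : Fin 3) : W.dv W.x s = W.E * W.x s - W.q * W.d s := by
  refine all3 (P := fun s => W.dv W.x s = W.E * W.x s - W.q * W.d s) ?_ ?_ ?_ s <;>
    simp only [dv, Matrix.cons_val] <;>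
    (simp +decide only [WY.q, WY.E, WY.L, WY.l0, WY.l1, WY.l2, mul_add, add_mul, mul_sub, sub_mul,
      mul_assoc, WY.xx1, WY.xx2, WY.dd1, WY.dd2, WY.dx, WY.dx2, if_true, if_false, add_zero,
      zero_add, mul_one, one_mul, mul_neg, neg_mul, two_mul, mul_two, mul_zero, zero_mul] <;>
      try abel)

theorem dv_d (s : Fin 3) : W.dv W.d s = W.L * W.x s - (W.E + 3) * W.d s := by
  rw [show (3 : D) = 1 + 1 + 1 by norm_num]
  refine all3 (P := fun s => W.dv W.d s = W.L * W.x s - (W.E + (1 + 1 + 1)) * W.d s) ?_ ?_ ?_ s <;>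
    simp only [dv, Matrix.cons_val] <;>
    (simp +decide only [WY.q, WY.E, WY.L, WY.l0, WY.l1, WY.l2, mul_add, add_mul, mul_sub, sub_mul,
      mul_assoc, WY.xx1, WY.xx2, WY.dd1, WY.dd2, WY.dx, WY.dx2, if_true, if_false, add_zero,
      zero_add, mul_one, one_mul, mul_neg, neg_mul, two_mul, mul_two, mul_zero, zero_mul] <;>
      try abel)

theorem dv_l (s : Fin 3) : W.dv W.l s = 0 := by
  refine all3 (P := fun s => W.dv W.l s = 0) ?_ ?_ ?_ s <;>
    simp only [dv, Matrix.cons_val] <;>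
    (simp +decide only [WY.q, WY.E, WY.L, WY.l0, WY.l1, WY.l2, mul_add, add_mul, mul_sub, sub_mul,
      mul_assoc, WY.xx1, WY.xx2, WY.dd1, WY.dd2, WY.dx, WY.dx2, if_true, if_false, add_zero,
      zero_add, mul_one, one_mul, mul_neg, neg_mul, two_mul, mul_two, mul_zero, zero_mul] <;>
      try abel)

theorem dv_cv (a b c : UU) : W.dv (W.cv a b c) =
    W.cv (a * UU.E + b * UU.L) (-(a * UU.q) - b * (UU.E + 3)) 0 := funext fun s => by
  have e : W.dv (W.cv a b c) s = W.φ a * W.dv W.x s + W.φ b * W.dv W.d s + W.φ c * W.dv W.l s := by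
    refine all3 (P := fun s => W.dv (W.cv a b c) s =
      W.φ a * W.dv W.x s + W.φ b * W.dv W.d s + W.φ c * W.dv W.l s) ?_ ?_ ?_ s <;>
      simp only [dv, cv, Matrix.cons_val] <;> noncomm_ring
  rw [e, dv_x, dv_d, dv_l]
  simp only [cv, map_add, map_sub, map_neg, map_mul, map_ofNat, map_zero, φ_q, φ_E, φ_L]
  noncomm_ring

/-- The invariant elements. -/
def Inv (y : L3 D) : Prop := (∀ c, W.l c * y.s = y.s * W.l c) ∧ W.Cov y.v ∧ W.Cov y.w ∧
  ∀ c, W.l c * y.t = y.t * W.l c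

theorem cov_zero : W.Cov 0 := W.cv_zero ▸ W.cov_cv 0 0 0

theorem smul_cv (k a b c : UU) (s : Fin 3) :
    W.φ k * W.cv a b c s = W.cv (k * a) (k * b) (k * c) s := by
  simp only [cv, map_mul]
  noncomm_ring

end WY

/-- A model of the invariant algebra. -/
structure PL (W : WY D) (A : WA) where
  κ : ℂ
  κ_ne : κ ≠ 0
  j : A.A.R →ₗ[ℂ] L3 D
  inj : Function.Injective j
  inv : ∀ z, W.Inv (j z)
  sur : ∀ y, W.Inv y → ∃ z, j z = y
  gr : ∀ m z, z ∈ A.A.gr m ↔ j z ∈ L3.gr ℂ D m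
  one : j 1 = ⟨1, 0, 0, 0⟩
  mul_s : ∀ y z, (j (y * z)).s = (j y).s * (j z).s
  mul_v : ∀ y z a, (j (y * z)).v a = (j y).s * (j z).v a + (j y).v a * (j z).s
  d_s : ∀ z, (j (A.A.d z)).s = κ • ((j z).v 0 * W.l 0 + (j z).v 1 * W.l 1 + (j z).v 2 * W.l 2)
  d_v : ∀ z, (j (A.A.d z)).v = κ • W.dv (j z).w
  d_w : ∀ z a, (j (A.A.d z)).w a = κ • ((j z).t * W.l a)
  d_t : ∀ z, (j (A.A.d z)).t = 0
  jE : j A.E = ⟨W.E, 0, 0, 0⟩
  jq : j A.q = ⟨W.q, 0, 0, 0⟩

namespace PL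

variable {W : WY D} {A : WA} (P : PL W A)

theorem co (z : A.A.R) : ∃ u a b c, (P.j z).s = W.φ u ∧ (P.j z).v = W.cv a b c := by
  obtain ⟨u, hu⟩ := W.inv_ex (P.inv z).1
  obtain ⟨a, b, c, h⟩ := (P.inv z).2.1.ex
  exact ⟨u, a, b, c, hu, funext h⟩

/-- The radial part map. -/
def f : A.A.R →ₗ[ℂ] E4 w0 := pk.comp ((W.ψ0.comp ((L3.ps ℂ D).comp P.j)).prod
  (W.ψ1.comp ((LinearMap.pi (L3.pv ℂ D)).comp P.j)))

theorem f_apply (z : A.A.R) : P.f z = pk (W.ψ0 (P.j z).s, W.ψ1 (P.j z).v) := rfl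

theorem f_eq {z : A.A.R} {u a b c : UU} (h1 : (P.j z).s = W.φ u) (h2 : (P.j z).v = W.cv a b c) :
    P.f z = pk (pT u, od a b) := by rw [f_apply, h1, h2, W.ψ0_φ, W.ψ1_cv]

theorem f_s {z : A.A.R} {u : UU} (h : P.j z = ⟨W.φ u, 0, 0, 0⟩) : P.f z = pk (pT u, 0) := by
  rw [f_apply, h, W.ψ0_φ, map_zero]

theorem f_one : P.f 1 = pk (1, 0) :=
  (P.f_s (u := 1) (by rw [P.one, map_one])).trans (by rw [map_one])

theorem d_s' {z : A.A.R} {a b c : UU} (h : (P.j z).v = W.cv a b c) :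
    (P.j (A.A.d z)).s = W.φ (P.κ • c * UU.Om) := by
  rw [P.d_s, h, smul_mul_assoc, map_smul, ← W.dot_l a b c]
  rfl

theorem d_v' {z : A.A.R} {a b c : UU} (h : (P.j z).w = W.cv a b c) :
    (P.j (A.A.d z)).v = W.cv (P.κ • a * UU.E + P.κ • b * UU.L)
      (-(P.κ • a * UU.q) - P.κ • b * (UU.E + 3)) 0 := by
  rw [P.d_v, h, W.dv_cv]
  funext s
  simp only [WY.cv, Pi.smul_apply, map_add, map_sub, map_neg, map_mul, map_smul, map_zero, zero_mul,
    add_zero, smul_add, smul_sub, smul_neg, smul_mul_assoc, add_mul, sub_mul, neg_mul]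

/-- The radial part homomorphism. -/
def n : NHom A.A B0.A where
  f := P.f
  mul y z := by
    obtain ⟨u, a, b, c, h1, h2⟩ := P.co y
    obtain ⟨u', a', b', c', h3, h4⟩ := P.co z
    change P.f (y * z) = P.f y * P.f z
    rw [P.f_eq h1 h2, P.f_eq h3 h4, pk_mul _ _ (w0_pT _) (w0_od _ _), f_apply, P.mul_s, h1, h3,
      ← map_mul, W.ψ0_φ, map_mul, ← W.ψ1_mul u a b c u' a' b' c', funext (P.mul_v y z), h1, h2, h3,
      h4]
  comm z := by
    obtain ⟨u, a, b, c, h1, h2⟩ := P.co z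
    obtain ⟨a', b', c', h⟩ := (P.inv z).2.2.1.ex
    change P.f (A.A.d z) = 0
    rw [P.f_eq (P.d_s' h2) (P.d_v' (funext h)), od_zero, map_mul, p0_Om, mul_zero]
    exact map_zero pk
  deg m z h := by
    have h' := (P.gr m z).1 h
    change P.f z ∈ E4.gr w0 m
    rw [f_apply, pk_apply]
    exact ⟨fun e => by simp [h'.1 e], fun e => by simp [h'.2.1 e]⟩

theorem n_e : P.n.e = pk (1, 0) := P.f_one

theorem e : P.n.e = ((1 / 2 : ℂ) • (1 + E4.w w0) : E4 w0) := P.n_e.trans pk_one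

/-- The radial part homomorphism of weighted algebras. -/
def g : WH A B0 where
  φ := P.n
  E_l := by
    rw [P.n_e]
    exact (P.f_s (u := UU.E) (by rw [P.jE, W.φ_E])).trans
      ((congrArg (fun y => pk (y, 0)) (p0_E _)).trans (io_pk _).symm)
  E_r := by
    rw [P.n_e]
    exact (P.f_s (u := UU.E) (by rw [P.jE, W.φ_E])).trans
      ((congrArg (fun y => pk (y, 0)) (p0_E _)).trans (pk_io w0_E).symm)
  q_l := by
    rw [P.n_e]
    exact (P.f_s (u := UU.q) (by rw [P.jq, W.φ_q])).trans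
      ((congrArg (fun y => pk (y, 0)) (p0_q _)).trans (io_pk _).symm)
  q_r := by
    rw [P.n_e]
    exact (P.f_s (u := UU.q) (by rw [P.jq, W.φ_q])).trans
      ((congrArg (fun y => pk (y, 0)) (p0_q _)).trans
        (pk_io (by rw [map_mul, w0_t, neg_mul_neg])).symm)

theorem exact {m : ℤ} {z : A.A.R} (hz : z ∈ A.A.gr m) (hd : A.A.d z = 0) (h0 : P.f z = 0) :
    ∃ y ∈ A.A.gr (m - 1), A.A.d y = z := by
  have κ1 : ∀ u : UU, P.κ • P.κ⁻¹ • u = u := fun u => smul_inv_smul₀ P.κ_ne u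
  have κ2 : ∀ u : UU, P.κ • u = 0 → u = 0 := fun u h => (smul_eq_zero.1 h).resolve_left P.κ_ne
  have z0 : ∀ c, W.l c * 0 = 0 * W.l c := fun c => by rw [mul_zero, zero_mul]
  have hj : P.j (A.A.d z) = 0 := by rw [hd, map_zero]
  obtain ⟨u, a, b, c, h1, h2⟩ := P.co z
  obtain ⟨k1, k2⟩ := pk_inj ((P.f_eq h1 h2).symm.trans h0)
  rcases L3.gr_cases ((P.gr m z).1 hz) with ⟨rfl, e⟩ | ⟨rfl, e⟩ | ⟨rfl, e⟩ | ⟨rfl, e⟩ | e
  · obtain ⟨v, rfl⟩ := ker_pT k1
    obtain ⟨y, hy⟩ := P.sur ⟨0, W.cv 0 0 (P.κ⁻¹ • v), 0, 0⟩ ⟨z0, W.cov_cv _ _ _, W.cov_zero, z0⟩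
    refine ⟨y, (P.gr _ y).2 (by rw [hy]; simp [L3.mem_gr]), P.inj ?_⟩
    rw [e]
    refine L3.ext ?_ ?_ (funext fun s => ?_) (P.d_t y)
    · rw [P.d_s' (congrArg L3.v hy), κ1, h1]
    · rw [P.d_v' (a := 0) (b := 0) (c := 0) (by rw [hy, W.cv_zero])]
      simpa using W.cv_zero
    · rw [P.d_w, hy]; simp
  · have hc : c = 0 := κ2 c (reg (W.φ_inj ((P.d_s' h2).symm.trans (congrArg L3.s hj))))
    obtain ⟨u', v', ha, hb⟩ := od_ker k2
    obtain ⟨y, hy⟩ := P.sur ⟨0, 0, W.cv (P.κ⁻¹ • -u') (P.κ⁻¹ • v') 0, 0⟩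
      ⟨z0, W.cov_zero, W.cov_cv _ _ _, z0⟩
    refine ⟨y, (P.gr _ y).2 (by rw [hy]; simp [L3.mem_gr]), P.inj ?_⟩
    rw [e]
    refine L3.ext ?_ ?_ (funext fun s => ?_) (P.d_t y)
    · rw [P.d_s, hy]; simp
    · rw [P.d_v' (congrArg L3.w hy), κ1, κ1, h2, ha, hb, hc, neg_mul, neg_mul, neg_neg,
        neg_add_eq_sub]
    · rw [P.d_w, hy]; simp
  · obtain ⟨a', b', c', h⟩ := (P.inv z).2.2.1.ex
    have f1 := W.free (congrFun ((P.d_v' (funext h)).symm.trans (congrArg L3.v hj)))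
    have f2 := mf_inj (a := P.κ • a') (b := -(P.κ • b'))
      (by rw [neg_mul]; exact eq_neg_of_add_eq_zero_left f1.1)
      (by rw [neg_mul]; exact neg_eq_iff_eq_neg.1 (sub_eq_zero.1 f1.2.1))
    obtain ⟨y, hy⟩ := P.sur ⟨0, 0, 0, W.φ (P.κ⁻¹ • c')⟩
      ⟨z0, W.cov_zero, W.cov_zero, fun k => W.l_φ k _⟩
    refine ⟨y, (P.gr _ y).2 (by rw [hy]; simp [L3.mem_gr]), P.inj ?_⟩
    rw [e]
    refine L3.ext ?_ ?_ (funext fun s => ?_) (P.d_t y)
    · rw [P.d_s, hy]; simp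
    · rw [P.d_v' (a := 0) (b := 0) (c := 0) (by rw [hy, W.cv_zero])]
      simpa using W.cv_zero
    · rw [P.d_w, hy]
      change P.κ • (W.φ (P.κ⁻¹ • c') * W.l s) = (P.j z).w s
      rw [h, κ2 _ f2.1, κ2 _ (neg_eq_zero.1 f2.2), ← smul_mul_assoc, ← map_smul, κ1]
      simp
  · obtain ⟨v, hv⟩ := W.inv_ex (P.inv z).2.2.2
    have : P.κ • v = 0 := W.l_reg fun s => by
      rw [map_smul, smul_mul_assoc, ← hv, ← P.d_w, hj]; rfl
    refine ⟨0, zero_mem _, P.inj ?_⟩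
    rw [map_zero, map_zero, e, hv, κ2 v this, map_zero]
    rfl
  · exact ⟨0, zero_mem _, P.inj (by rw [map_zero, map_zero, e])⟩

theorem morH : MorH P.g.φ := fun m => by
  have z0 : ∀ c, W.l c * 0 = 0 * W.l c := fun c => by rw [mul_zero, zero_mul]
  refine ⟨fun z hz hd ⟨b, _, hb⟩ => P.exact hz hd hb.symm, fun (b : E4 w0) hb _ => ?_⟩
  suffices h : ∃ a ∈ A.A.gr m, A.A.d a = 0 ∧ P.f a = pk (1, 0) * (b * pk (1, 0)) by
    obtain ⟨a, h1, h2, h3⟩ := h
    refine ⟨a, h1, h2, 0, zero_mem _, (map_zero _).trans (sub_eq_zero.2 ?_).symm⟩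
    rw [show P.g.φ.e = pk (1, 0) from P.n_e]
    exact h3.symm
  rw [pk_cut]
  rcases E4.gr_cases hb with ⟨rfl, h1, h2⟩ | ⟨rfl, h1, h2⟩ | rfl
  · obtain ⟨u, -, -, hu, -⟩ := ev_od (b.a + b.b)
    obtain ⟨y, hy⟩ := P.sur ⟨W.φ u, 0, 0, 0⟩ ⟨fun k => W.l_φ k _, W.cov_zero, W.cov_zero, z0⟩
    refine ⟨y, (P.gr _ y).2 (by rw [hy]; simp [L3.mem_gr]), P.inj ?_, ?_⟩
    · rw [map_zero]
      refine L3.ext ?_ ?_ (funext fun s => ?_) (P.d_t y)
      · rw [P.d_s, hy]; simp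
      · rw [P.d_v' (a := 0) (b := 0) (c := 0) (by rw [hy, W.cv_zero])]
        simpa using W.cv_zero
      · rw [P.d_w, hy]; simp
    · rw [P.f_s hy, hu, h1, h2]; simp
  · obtain ⟨-, u, v, -, hu⟩ := ev_od (b.c + b.e)
    obtain ⟨y, hy⟩ := P.sur ⟨0, W.cv u v 0, 0, 0⟩ ⟨z0, W.cov_cv _ _ _, W.cov_zero, z0⟩
    refine ⟨y, (P.gr _ y).2 (by rw [hy]; simp [L3.mem_gr]), P.inj ?_, ?_⟩
    · rw [map_zero]
      refine L3.ext ?_ ?_ (funext fun s => ?_) (P.d_t y)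
      · rw [P.d_s' (congrArg L3.v hy)]; simp
      · rw [P.d_v' (a := 0) (b := 0) (c := 0) (by rw [hy, W.cv_zero])]
        simpa using W.cv_zero
      · rw [P.d_w, hy]; simp
    · rw [P.f_eq (u := 0) (by rw [hy, map_zero]) (congrArg L3.v hy), hu, h1, h2]; simp
  · exact ⟨0, zero_mem _, map_zero _, by ext <;> simp [pk_apply]⟩

end PL

end

end Vale.Agent.P286E38
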