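import Vale.Agent.P286E38.Fp
import Vale.Agent.P286EX7.Br2
import Vale.Agent.P286EXR.Low

/-!
The radial part map for the trivial representation.
-/

set_option autoImplicit false
set_option linter.all false

namespace Vale.Agent.P286E38

open Vale.Agent.P286EI Vale.Agent.P286EK Vale.Agent.P286E48 Vale.Agent.P286E99 Vale.Agent.P286EL
  Vale.Agent.P286E73 Vale.Agent.P286EX

noncomputable section

theorem inv_iff (B : BD) (W : WY B.M) (hκ : B.κ ≠ 0) (h : ∀ a, B.μ a = -(B.κ • W.l a))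
    (y : L3 B.M) : (∀ a, B.δ a y = 0) ↔ W.Inv y := by
  have e1 : ∀ a z, adj (B.μ a) z + B.κ • (0 : B.M) = 0 ↔ W.l a * z = z * W.l a := fun a z => by
    rw [adj_apply, h, smul_zero, add_zero, sub_eq_zero, neg_mul, mul_neg, neg_inj, smul_mul_assoc,
      mul_smul_comm, (smul_right_injective _ hκ).eq_iff]
  have e2 : ∀ a z w, adj (B.μ a) z + B.κ • w = 0 ↔ W.l a * z - z * W.l a = w := fun a z w => by
    rw [adj_apply, h, neg_mul, mul_neg, smul_mul_assoc, mul_smul_comm, ← neg_sub', ← smul_sub,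
      neg_add_eq_zero, (smul_right_injective _ hκ).eq_iff]
  constructor
  · intro k
    exact ⟨fun c => (e1 c _).1 (congrArg L3.s (k c)),
      fun c a => (e2 c _ _).1 (congrFun (congrArg L3.v (k c)) a),
      fun c a => (e2 c _ _).1 (congrFun (congrArg L3.w (k c)) a),
      fun c => (e1 c _).1 (congrArg L3.t (k c))⟩
  · intro k c
    exact L3.ext ((e1 c _).2 (k.1 c)) (funext fun a => (e2 c _ _).2 (k.2.1 c a))
      (funext fun a => (e2 c _ _).2 (k.2.2.1 c a)) ((e1 c _).2 (k.2.2.2 c))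

/-- The invariants of an algebra with the rotations as moment map. -/
def plOf (B : BD) (W : WY B.M) (hκ : B.κ ≠ 0) (h : ∀ a, B.μ a = -(B.κ • W.l a)) {E q : B.M}
    (hE hq hw hs) (e1 : E = W.E) (e2 : q = W.q) : PL W (B.wa E q hE hq hw hs) where
  κ := B.κ
  κ_ne := hκ
  j := B.ι.toLinearMap
  inj := B.ι_inj
  inv z := (inv_iff B W hκ h _).1 (B.ι_δ z)
  sur y hy := B.ι_sur y ((inv_iff B W hκ h y).2 hy)
  gr m z := B.ι_gr
  one := rfl
  mul_s y z := rfl
  mul_v y z a := rfl
  d_s z := by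
    change (B.d (B.ι z)).s = B.κ • ((B.ι z).v 0 * _ + (B.ι z).v 1 * _ + (B.ι z).v 2 * _)
    simp only [dL_apply, L3.rm_apply, BD.m, h, neg_neg, mul_smul_comm, smul_add]
  d_v z := funext fun a => by
    change (B.d (B.ι z)).v a = B.κ • W.dv (B.ι z).w a
    refine all3 (P := fun a => (B.d (B.ι z)).v a = B.κ • W.dv (B.ι z).w a) ?_ ?_ ?_ a <;>
      simp only [dL_apply, L3.rm_apply, BD.m, h, neg_neg, mul_smul_comm, smul_add, smul_sub, f3,
        WY.dv, Matrix.cons_val] <;> exact add_comm _ _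
  d_w z a := by
    change (B.d (B.ι z)).w a = B.κ • ((B.ι z).t * _)
    simp only [dL_apply, L3.rm_apply, BD.m, h, neg_neg, mul_smul_comm]
  d_t z := rfl
  jE := e1 ▸ rfl
  jq := e2 ▸ rfl

variable {n : Type} [Fintype n] [DecidableEq n] [Subsingleton n] [Nonempty n]

theorem sc_bij : Function.Bijective (Matrix.scalarAlgHom n ℂ (α := W3)) := by
  obtain ⟨i⟩ : Nonempty n := inferInstance
  refine ⟨fun a b h => ?_, fun x => ⟨x i i, Matrix.ext fun k l => ?_⟩⟩
  · simpa using congrFun (congrFun h i) i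
  · rw [Subsingleton.elim k i, Subsingleton.elim l i]
    simp

variable (n) in
/-- The matrices of size one. -/
def w1 : WY (Matrix n n W3) := w3.map (Matrix.scalarAlgHom n ℂ) sc_bij

theorem mu3_eq (κ : ℂ) (a : Fin 3) : mu3 κ a = -(κ • w3.l a) := by
  refine all3 (P := fun a => mu3 κ a = -(κ • w3.l a)) ?_ ?_ ?_ a <;>
    simp only [mu, f3, WY.l0, WY.l1, WY.l2, ← smul_neg, neg_sub] <;> rfl

theorem w1_l (a : Fin 3) : (w1 n).l a = Matrix.scalarAlgHom n ℂ (w3.l a) := by
  refine all3 (P := fun a => (w1 n).l a = Matrix.scalarAlgHom n ℂ (w3.l a)) ?_ ?_ ?_ a <;>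
    simp only [WY.l0, WY.l1, WY.l2, map_sub, map_mul] <;> rfl

/-- The model for a trivial action on a line. -/
def plM {κ : ℂ} (hκ : κ ≠ 0) {r : Fin 3 → Matrix n n ℂ} (hr : Br κ r) (h0 : ∀ a, r a = 0) :
    PL (w1 n) (AM κ r hr) :=
  plOf (bdM κ r hr) (w1 n) hκ (fun a => by
      change MU (mu3 κ) r a = -(κ • (w1 n).l a)
      rw [w1_l, ← map_smul, ← map_neg, ← mu3_eq, MU, h0, Matrix.transpose_zero, neg_zero,
        Matrix.map_zero _ (map_zero _), add_zero]
      rfl) _ _ _ _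
    (by
      change Matrix.scalarAlgHom n ℂ (E0 (Fin 3)) = (w1 n).E
      simp only [E0, WY.E, Fin.sum_univ_three, map_add, map_mul]
      rfl)
    (by
      change Matrix.scalarAlgHom n ℂ q3 = (w1 n).q
      simp only [q3, WY.q, Fin.sum_univ_three, map_add, map_mul]
      rfl)

variable {G : Vale.Agent.P286E.Grp} (K : GK G)

/-- The model for the trivial representation. -/
def plT : PL (w1 (Fin 1)) (AU (P286EXR.triv K)) :=
  plM (n := Fin 1) K.κ_ne (P286EXR.triv K).dr_br fun _ => rfl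

/-- The radial part map. -/
def gP : WH (AU (P286EXR.triv K)) B0 := (plT K).g

theorem gP_morH : MorH (gP K).φ := (plT K).morH

theorem gP_e : (gP K).φ.e = ((1 / 2 : ℂ) • (1 + E4.w w0) : E4 w0) := (plT K).e

end

end Vale.Agent.P286E38
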