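import Vale.Agent.P286E38.Sl
import Vale.Agent.P286EI.Lie
import Vale.Agent.P286EI.DW
import Vale.Agent.P286EI.L3

/-!
Invariants and covariants of the rotations in the Weyl algebra.
-/

set_option autoImplicit false
set_option linter.all false

namespace Vale.Agent.P286E38

open MvPolynomial Matrix Vale.Agent.P286EI

noncomputable section

/-- The ordered monomials. -/
def nu : TT →ₗ[ℂ] UU := (basisMonomials (Fin 3) ℂ).constr ℂ fun α =>
  UU.q ^ α 0 * Polynomial.aeval UU.E (descPochhammer ℂ (α 1)) * UU.L ^ α 2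

theorem nu_mon (α : Fin 3 →₀ ℕ) (c : ℂ) : nu (monomial α c) =
    c • (UU.q ^ α 0 * Polynomial.aeval UU.E (descPochhammer ℂ (α 1)) * UU.L ^ α 2) := by
  rw [← mul_one c, ← smul_eq_mul, ← smul_monomial, map_smul, smul_eq_mul, mul_one]
  exact congrArg (c • ·) ((basisMonomials (Fin 3) ℂ).constr_basis ℂ _ α)

theorem nu_surj (u : UU) : ∃ a, nu a = u := by
  have m : ∀ i j k : ℕ, UU.q ^ i * Polynomial.aeval UU.E (descPochhammer ℂ j) * UU.L ^ k ∈
      LinearMap.range nu := fun i j k =>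
    ⟨monomial (Finsupp.equivFunOnFinite.symm ![i, j, k]) 1, by rw [nu_mon, one_smul]; rfl⟩
  have k : ∀ a : UU, (∀ i j k : ℕ,
      a * (UU.q ^ i * Polynomial.aeval UU.E (descPochhammer ℂ j) * UU.L ^ k) ∈ LinearMap.range nu) →
      ∀ x ∈ LinearMap.range nu, a * x ∈ LinearMap.range nu := by
    rintro a ha _ ⟨F, rfl⟩
    induction F using MvPolynomial.induction_on' with
    | add F G hF hG => rw [map_add, mul_add]; exact add_mem hF hG
    | monomial α c => rw [nu_mon, mul_smul_comm]; exact Submodule.smul_mem _ c (ha _ _ _)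
  have hq := k UU.q fun i j k => by
    rw [← mul_assoc, ← mul_assoc, ← pow_succ']; exact m _ j k
  have hE := k UU.E fun i j k => by
    have e : UU.E * (UU.q ^ i * Polynomial.aeval UU.E (descPochhammer ℂ j) * UU.L ^ k) =
        UU.q ^ i * Polynomial.aeval UU.E (descPochhammer ℂ (j + 1)) * UU.L ^ k +
        (2 * i + j) • (UU.q ^ i * Polynomial.aeval UU.E (descPochhammer ℂ j) * UU.L ^ k) := by
      have e1 : (UU.E + 2 * i) * Polynomial.aeval UU.E (descPochhammer ℂ j) =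
          Polynomial.aeval UU.E (descPochhammer ℂ (j + 1)) +
            (2 * i + j) • Polynomial.aeval UU.E (descPochhammer ℂ j) := by
        have : (UU.E + 2 * i) = Polynomial.aeval UU.E (Polynomial.X + 2 * (i : Polynomial ℂ)) := by
          simp only [map_add, map_mul, map_ofNat, map_natCast, Polynomial.aeval_X]
        rw [this, ← map_mul, ← map_nsmul, ← map_add, descPochhammer_succ_right]
        congr 1
        simp only [nsmul_eq_mul]
        push_cast
        ring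
      rw [← mul_assoc, ← mul_assoc, UU.tri.E_qp, mul_assoc (UU.q ^ i), e1, mul_add, add_mul,
        mul_smul_comm, smul_mul_assoc]
    rw [e]
    exact add_mem (m _ _ _) (nsmul_mem (m _ _ _) _)
  have hf : ∀ f : Polynomial ℂ, ∀ x ∈ LinearMap.range nu,
      Polynomial.aeval UU.E f * x ∈ LinearMap.range nu := fun f => by
    induction f using Polynomial.induction_on with
    | C c =>
      intro x hx
      rw [Polynomial.aeval_C, ← Algebra.smul_def]
      exact Submodule.smul_mem _ c hx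
    | add f g h1 h2 => intro x hx; rw [map_add, add_mul]; exact add_mem (h1 x hx) (h2 x hx)
    | monomial n c ih =>
      intro x hx
      rw [pow_succ, ← mul_assoc, map_mul, Polynomial.aeval_X, mul_assoc]
      exact ih _ (hE x hx)
  refine UU.eq_top (S := LinearMap.range nu) (by simpa using m 0 0 0) hq hE
    (k UU.L fun i j k => ?_) u
  induction i with
  | zero =>
    have e : UU.L * Polynomial.aeval UU.E (descPochhammer ℂ j) =
        Polynomial.aeval UU.E ((descPochhammer ℂ j).comp (Polynomial.X + 2)) * UU.L := by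
      rw [← aeval_mul UU.tri.le.symm, Polynomial.aeval_comp, map_add, Polynomial.aeval_X, map_ofNat]
    rw [pow_zero, one_mul, ← mul_assoc, e, mul_assoc, ← pow_succ']
    exact hf _ _ (by simpa using m 0 0 (k + 1))
  | succ i ih =>
    rw [pow_succ', mul_assoc UU.q, mul_assoc UU.q, ← mul_assoc, UU.tri.lq, add_mul, add_mul,
      mul_assoc, mul_assoc 4]
    exact add_mem (add_mem (hq _ ih) (by simpa using nsmul_mem (hE _ (m i j k)) 4))
      (by simpa using nsmul_mem (m i j k) 6)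

/-- A Weyl algebra with its normal ordering. -/
structure WY (D : Type) [Ring D] [Algebra ℂ D] where
  x : Fin 3 → D
  d : Fin 3 → D
  no : PP →ₗ[ℂ] D
  xx : ∀ a b, x a * x b = x b * x a
  dd : ∀ a b, d a * d b = d b * d a
  dx : ∀ a b, d a * x b = x b * d a + if a = b then 1 else 0
  no_one : no 1 = 1
  no_x : ∀ a p, no (xv a * p) = x a * no p
  no_d : ∀ a p, no (p * kv a) = no p * d a
  bij : Function.Bijective no

/-- The cross product with a constant vector. -/
def crs {D : Type} [AddCommGroup D] [Module ℂ D] (n : Fin 3 → ℂ) (v : Fin 3 → D) : Fin 3 → D :=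
  ![n 1 • v 2 - n 2 • v 1, n 2 • v 0 - n 0 • v 2, n 0 • v 1 - n 1 • v 0]

theorem map_crs {D : Type} [AddCommGroup D] [Module ℂ D] (f : PP →ₗ[ℂ] D) (n : Fin 3 → ℂ)
    (p : Fin 3 → PP) (a : Fin 3) : f (((C ∘ n) ⨯₃ p) a) = crs n (fun b => f (p b)) a := by
  refine all3 (P := fun a => f (((C ∘ n) ⨯₃ p) a) = crs n (fun b => f (p b)) a) ?_ ?_ ?_ a <;>
    simp only [cr0, cr1, cr2, Function.comp_apply, C_mul', map_sub, map_smul] <;> rfl

namespace WY

variable {D D' : Type} [Ring D] [Algebra ℂ D] [Ring D'] [Algebra ℂ D'] (W : WY D)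

/-- Transport along an isomorphism. -/
def map (e : D →ₐ[ℂ] D') (h : Function.Bijective e) : WY D' where
  x a := e (W.x a)
  d a := e (W.d a)
  no := e.toLinearMap.comp W.no
  xx a b := by rw [← map_mul, W.xx, map_mul]
  dd a b := by rw [← map_mul, W.dd, map_mul]
  dx a b := by rw [← map_mul, W.dx, map_add, map_mul, apply_ite e, map_one, map_zero]
  no_one := (congrArg e W.no_one).trans (map_one e)
  no_x a p := (congrArg e (W.no_x a p)).trans (map_mul e _ _)
  no_d a p := (congrArg e (W.no_d a p)).trans (map_mul e _ _)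
  bij := h.comp W.bij

/-- The square of the radius. -/
def q : D := W.x 0 * W.x 0 + W.x 1 * W.x 1 + W.x 2 * W.x 2

/-- The Euler field. -/
def E : D := W.x 0 * W.d 0 + W.x 1 * W.d 1 + W.x 2 * W.d 2

/-- The Laplacian. -/
def L : D := W.d 0 * W.d 0 + W.d 1 * W.d 1 + W.d 2 * W.d 2

/-- The infinitesimal rotations. -/
def l : Fin 3 → D :=
  ![W.x 1 * W.d 2 - W.x 2 * W.d 1, W.x 2 * W.d 0 - W.x 0 * W.d 2, W.x 0 * W.d 1 - W.x 1 * W.d 0]

theorem l0 : W.l 0 = W.x 1 * W.d 2 - W.x 2 * W.d 1 := rfl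

theorem l1 : W.l 1 = W.x 2 * W.d 0 - W.x 0 * W.d 2 := rfl

theorem l2 : W.l 2 = W.x 0 * W.d 1 - W.x 1 * W.d 0 := rfl

theorem xx1 {a b : Fin 3} (h : b < a) : W.x a * W.x b = W.x b * W.x a := W.xx a b

theorem xx2 {a b : Fin 3} (h : b < a) (z : D) : W.x a * (W.x b * z) = W.x b * (W.x a * z) := by
  rw [← mul_assoc, W.xx, mul_assoc]

theorem dd1 {a b : Fin 3} (h : b < a) : W.d a * W.d b = W.d b * W.d a := W.dd a b

theorem dd2 {a b : Fin 3} (h : b < a) (z : D) : W.d a * (W.d b * z) = W.d b * (W.d a * z) := by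
  rw [← mul_assoc, W.dd, mul_assoc]

theorem dx2 (a b : Fin 3) (z : D) :
    W.d a * (W.x b * z) = W.x b * (W.d a * z) + if a = b then z else 0 := by
  rw [← mul_assoc, W.dx, add_mul, mul_assoc, ite_mul, one_mul, zero_mul]

theorem tri : Tri W.q W.E W.L := by
  refine ⟨?_, ?_, ?_⟩
  · (simp +decide only [WY.q, WY.E, WY.L, WY.l0, WY.l1, WY.l2, mul_add, add_mul, mul_sub, sub_mul,
      mul_assoc, WY.xx1, WY.xx2, WY.dd1, WY.dd2, WY.dx, WY.dx2, if_true, if_false, add_zero,
      zero_add, mul_one, one_mul, mul_neg, neg_mul, two_mul, mul_two, mul_zero, zero_mul] <;>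
      try abel)
  · (simp +decide only [WY.q, WY.E, WY.L, WY.l0, WY.l1, WY.l2, mul_add, add_mul, mul_sub, sub_mul,
      mul_assoc, WY.xx1, WY.xx2, WY.dd1, WY.dd2, WY.dx, WY.dx2, if_true, if_false, add_zero,
      zero_add, mul_one, one_mul, mul_neg, neg_mul, two_mul, mul_two, mul_zero, zero_mul] <;>
      try abel)
  · rw [show (4 : D) = 2 + 2 by norm_num, show (6 : D) = 1 + 1 + 1 + 1 + 1 + 1 by norm_num]
    (simp +decide only [WY.q, WY.E, WY.L, WY.l0, WY.l1, WY.l2, mul_add, add_mul, mul_sub, sub_mul,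
      mul_assoc, WY.xx1, WY.xx2, WY.dd1, WY.dd2, WY.dx, WY.dx2, if_true, if_false, add_zero,
      zero_add, mul_one, one_mul, mul_neg, neg_mul, two_mul, mul_two, mul_zero, zero_mul] <;>
      try abel)

/-- The invariant operators. -/
def φ : UU →ₐ[ℂ] D := UU.lift W.tri

theorem φ_q : W.φ UU.q = W.q := UU.lift_q _

theorem φ_E : W.φ UU.E = W.E := UU.lift_E _

theorem φ_L : W.φ UU.L = W.L := UU.lift_L _

theorem vec (a : Fin 3) : Vec W.φ (W.x a) (W.d a) := by
  refine all3 (P := fun a => Vec W.φ (W.x a) (W.d a)) ?_ ?_ ?_ a <;>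
    refine ⟨?_, ?_, ?_, ?_, ?_, ?_⟩ <;> simp only [φ_q, φ_E, φ_L] <;>
    (simp +decide only [WY.q, WY.E, WY.L, WY.l0, WY.l1, WY.l2, mul_add, add_mul, mul_sub, sub_mul,
      mul_assoc, WY.xx1, WY.xx2, WY.dd1, WY.dd2, WY.dx, WY.dx2, if_true, if_false, add_zero,
      zero_add, mul_one, one_mul, mul_neg, neg_mul, two_mul, mul_two, mul_zero, zero_mul] <;>
      try abel)

theorem l_φ (c : Fin 3) (u : UU) : W.l c * W.φ u = W.φ u * W.l c := by
  refine all3 (P := fun c => W.l c * W.φ u = W.φ u * W.l c) ?_ ?_ ?_ c <;>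
    refine UU.cen ?_ ?_ ?_ u <;> simp only [φ_q, φ_E, φ_L] <;>
    (simp +decide only [WY.q, WY.E, WY.L, WY.l0, WY.l1, WY.l2, mul_add, add_mul, mul_sub, sub_mul,
      mul_assoc, WY.xx1, WY.xx2, WY.dd1, WY.dd2, WY.dx, WY.dx2, if_true, if_false, add_zero,
      zero_add, mul_one, one_mul, mul_neg, neg_mul, two_mul, mul_two, mul_zero, zero_mul] <;>
      try abel)

theorem x_l : W.x 0 * W.l 0 + W.x 1 * W.l 1 + W.x 2 * W.l 2 = 0 := by
    (simp +decide only [WY.q, WY.E, WY.L, WY.l0, WY.l1, WY.l2, mul_add, add_mul, mul_sub, sub_mul,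
      mul_assoc, WY.xx1, WY.xx2, WY.dd1, WY.dd2, WY.dx, WY.dx2, if_true, if_false, add_zero,
      zero_add, mul_one, one_mul, mul_neg, neg_mul, two_mul, mul_two, mul_zero, zero_mul] <;>
      try abel)

theorem d_l : W.d 0 * W.l 0 + W.d 1 * W.l 1 + W.d 2 * W.l 2 = 0 := by
    (simp +decide only [WY.q, WY.E, WY.L, WY.l0, WY.l1, WY.l2, mul_add, add_mul, mul_sub, sub_mul,
      mul_assoc, WY.xx1, WY.xx2, WY.dd1, WY.dd2, WY.dx, WY.dx2, if_true, if_false, add_zero,
      zero_add, mul_one, one_mul, mul_neg, neg_mul, two_mul, mul_two, mul_zero, zero_mul] <;>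
      try abel)

theorem l_l : W.l 0 * W.l 0 + W.l 1 * W.l 1 + W.l 2 * W.l 2 = W.φ UU.Om := by
  rw [φ, UU.lift_Om, cas]
  (simp +decide only [WY.q, WY.E, WY.L, WY.l0, WY.l1, WY.l2, mul_add, add_mul, mul_sub, sub_mul,
      mul_assoc, WY.xx1, WY.xx2, WY.dd1, WY.dd2, WY.dx, WY.dx2, if_true, if_false, add_zero,
      zero_add, mul_one, one_mul, mul_neg, neg_mul, two_mul, mul_two, mul_zero, zero_mul] <;>
      try abel)

theorem d_x : W.d 0 * W.x 0 + W.d 1 * W.x 1 + W.d 2 * W.x 2 = W.E + 3 := by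
  rw [show (3 : D) = 1 + 1 + 1 by norm_num]
  (simp +decide only [WY.q, WY.E, WY.L, WY.l0, WY.l1, WY.l2, mul_add, add_mul, mul_sub, sub_mul,
      mul_assoc, WY.xx1, WY.xx2, WY.dd1, WY.dd2, WY.dx, WY.dx2, if_true, if_false, add_zero,
      zero_add, mul_one, one_mul, mul_neg, neg_mul, two_mul, mul_two, mul_zero, zero_mul] <;>
      try abel)

/-- The covariant vectors. -/
def Cov (v : Fin 3 → D) : Prop := ∀ c a, W.l c * v a - v a * W.l c = L3.cx ℂ D c v a

theorem cov_of {v : Fin 3 → D} (h0 : W.l 0 * v 0 - v 0 * W.l 0 = 0)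
    (h1 : W.l 0 * v 1 - v 1 * W.l 0 = -v 2) (h2 : W.l 0 * v 2 - v 2 * W.l 0 = v 1)
    (h3 : W.l 1 * v 0 - v 0 * W.l 1 = v 2) (h4 : W.l 1 * v 1 - v 1 * W.l 1 = 0)
    (h5 : W.l 1 * v 2 - v 2 * W.l 1 = -v 0) (h6 : W.l 2 * v 0 - v 0 * W.l 2 = -v 1)
    (h7 : W.l 2 * v 1 - v 1 * W.l 2 = v 0) (h8 : W.l 2 * v 2 - v 2 * W.l 2 = 0) : W.Cov v :=
  all3 (all3 h0 h1 h2) (all3 h3 h4 h5) (all3 h6 h7 h8)

theorem cov_x : W.Cov W.x := by refine W.cov_of ?_ ?_ ?_ ?_ ?_ ?_ ?_ ?_ ?_ <;>
    (simp +decide only [WY.q, WY.E, WY.L, WY.l0, WY.l1, WY.l2, mul_add, add_mul, mul_sub, sub_mul,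
      mul_assoc, WY.xx1, WY.xx2, WY.dd1, WY.dd2, WY.dx, WY.dx2, if_true, if_false, add_zero,
      zero_add, mul_one, one_mul, mul_neg, neg_mul, two_mul, mul_two, mul_zero, zero_mul] <;>
      try abel)

theorem cov_d : W.Cov W.d := by refine W.cov_of ?_ ?_ ?_ ?_ ?_ ?_ ?_ ?_ ?_ <;>
    (simp +decide only [WY.q, WY.E, WY.L, WY.l0, WY.l1, WY.l2, mul_add, add_mul, mul_sub, sub_mul,
      mul_assoc, WY.xx1, WY.xx2, WY.dd1, WY.dd2, WY.dx, WY.dx2, if_true, if_false, add_zero,
      zero_add, mul_one, one_mul, mul_neg, neg_mul, two_mul, mul_two, mul_zero, zero_mul] <;>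
      try abel)

theorem cov_l : W.Cov W.l := by refine W.cov_of ?_ ?_ ?_ ?_ ?_ ?_ ?_ ?_ ?_ <;>
    (simp +decide only [WY.q, WY.E, WY.L, WY.l0, WY.l1, WY.l2, mul_add, add_mul, mul_sub, sub_mul,
      mul_assoc, WY.xx1, WY.xx2, WY.dd1, WY.dd2, WY.dx, WY.dx2, if_true, if_false, add_zero,
      zero_add, mul_one, one_mul, mul_neg, neg_mul, two_mul, mul_two, mul_zero, zero_mul] <;>
      try abel)

/-- The rotation about a vector. -/
def ln (n : Fin 3 → ℂ) : D := n 0 • W.l 0 + n 1 • W.l 1 + n 2 • W.l 2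

theorem ln_br (n : Fin 3 → ℂ) (z : D) : W.ln n * z - z * W.ln n = n 0 • (W.l 0 * z - z * W.l 0) +
    n 1 • (W.l 1 * z - z * W.l 1) + n 2 • (W.l 2 * z - z * W.l 2) := by
  simp only [ln, add_mul, mul_add, smul_mul_assoc, mul_smul_comm, smul_sub]
  abel

variable {W} in
theorem Cov.ln {v : Fin 3 → D} (h : W.Cov v) (n : Fin 3 → ℂ) (a : Fin 3) :
    W.ln n * v a - v a * W.ln n = crs n v a := by
  rw [ln_br, h, h, h]
  refine all3 (P := fun a => n 0 • L3.cx ℂ D 0 v a + n 1 • L3.cx ℂ D 1 v a +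
    n 2 • L3.cx ℂ D 2 v a = crs n v a) ?_ ?_ ?_ a <;> simp [L3.cx_apply, crs] <;> abel

theorem no_C (c : ℂ) : W.no (C c) = algebraMap ℂ D c := by
  rw [← mul_one (C c), C_mul', map_smul, W.no_one, Algebra.algebraMap_eq_smul_one]

/-- Normal ordering is equivariant. -/
theorem ln_no (n : Fin 3 → ℂ) (p : PP) : W.ln n * W.no p - W.no p * W.ln n = W.no (rot n p) := by
  induction p using MvPolynomial.induction_on with
  | C c => rw [no_C, Algebra.commutes, sub_self, derivation_C, map_zero]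
  | add p q hp hq => rw [map_add, map_add, map_add, ← hp, ← hq, mul_add, add_mul]; abel
  | mul_X p i hp =>
    rcases i with a | a
    · have e := map_crs (W.no.comp (LinearMap.mulRight ℂ p)) n xv a
      have e2 : crs n (fun b => W.x b * W.no p) a = crs n W.x a * W.no p := by
        refine all3 (P := fun a => crs n (fun b => W.x b * W.no p) a = crs n W.x a * W.no p)
          ?_ ?_ ?_ a <;> simp [crs, sub_mul]
      simp only [LinearMap.comp_apply, LinearMap.mulRight_apply, W.no_x] at e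
      rw [e2, ← W.cov_x.ln, ← rot_x] at e
      rw [mul_comm p, Derivation.leibniz, smul_eq_mul, smul_eq_mul, map_add, mul_comm p]
      change W.ln n * W.no (xv a * p) - W.no (xv a * p) * W.ln n =
        W.no (xv a * rot n p) + W.no ((rot n ∘ xv) a * p)
      rw [e, W.no_x, W.no_x, ← hp]
      noncomm_ring
    · have e := map_crs (W.no.comp (LinearMap.mulLeft ℂ p)) n kv a
      have e2 : crs n (fun b => W.no p * W.d b) a = W.no p * crs n W.d a := by
        refine all3 (P := fun a => crs n (fun b => W.no p * W.d b) a = W.no p * crs n W.d a)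
          ?_ ?_ ?_ a <;> simp [crs, mul_sub]
      simp only [LinearMap.comp_apply, LinearMap.mulLeft_apply, W.no_d] at e
      rw [e2, ← W.cov_d.ln, ← rot_k] at e
      rw [Derivation.leibniz, smul_eq_mul, smul_eq_mul, map_add, mul_comm (X (Sum.inr a))]
      change W.ln n * W.no (p * kv a) - W.no (p * kv a) * W.ln n =
        W.no (p * (rot n ∘ kv) a) + W.no (rot n p * kv a)
      rw [e, W.no_d, W.no_d, ← hp]
      noncomm_ring

theorem x_f (a : Fin 3) (f : Polynomial ℂ) :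
    W.x a * Polynomial.aeval W.E f = Polynomial.aeval (W.E - 1) f * W.x a :=
  (aeval_mul (by rw [← W.φ_E]; exact (W.vec a).xE.symm) f).symm

theorem φ_nu (a : TT) : W.φ (nu a) = W.no (iv a) := by
  have h0 : ∀ (i : ℕ) (p : PP), W.no ((xv ⬝ᵥ xv) ^ i * p) = W.q ^ i * W.no p := fun i p => by
    induction i with
    | zero => simp
    | succ i ih =>
      rw [pow_succ', mul_assoc, pow_succ', mul_assoc, ← ih]
      generalize (xv ⬝ᵥ xv) ^ i * p = r
      simp only [dt3, q, add_mul, mul_assoc, map_add, W.no_x]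
  have h2 : ∀ (i : ℕ) (p : PP), W.no (p * (kv ⬝ᵥ kv) ^ i) = W.no p * W.L ^ i := fun i p => by
    induction i with
    | zero => simp
    | succ i ih =>
      rw [pow_succ, ← mul_assoc, pow_succ, ← mul_assoc, ← ih]
      generalize p * (kv ⬝ᵥ kv) ^ i = r
      simp only [dt3, L, mul_add, ← mul_assoc, map_add, W.no_d]
  have h1 : ∀ j : ℕ, W.no ((xv ⬝ᵥ kv) ^ j) = Polynomial.aeval W.E (descPochhammer ℂ j) := fun j => by
    induction j with
    | zero => simp [W.no_one]
    | succ j ih =>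
      have e : ∀ a, W.no (xv a * kv a * (xv ⬝ᵥ kv) ^ j) =
          Polynomial.aeval (W.E - 1) (descPochhammer ℂ j) * (W.x a * W.d a) := fun a => by
        rw [mul_assoc, W.no_x, mul_comm (kv a), W.no_d, ih, ← mul_assoc, x_f, mul_assoc]
      rw [pow_succ', descPochhammer_succ_left, mul_comm Polynomial.X, map_mul (Polynomial.aeval W.E),
        Polynomial.aeval_comp, map_sub, map_one, Polynomial.aeval_X]
      conv_lhs => rw [dt3, add_mul, add_mul, map_add, map_add, ← dt3, e, e, e, ← mul_add, ← mul_add]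
      rfl
  induction a using MvPolynomial.induction_on' with
  | add a b ha hb => simp only [map_add, ha, hb]
  | monomial α c =>
    rw [nu_mon, iv, aeval_monomial, Finsupp.prod_fintype _ _ fun _ => pow_zero _,
      Fin.prod_univ_three, ← Algebra.smul_def, map_smul, map_smul]
    congr 1
    change _ = W.no ((xv ⬝ᵥ xv) ^ α 0 * (xv ⬝ᵥ kv) ^ α 1 * (kv ⬝ᵥ kv) ^ α 2)
    rw [h2, h0, h1, map_mul, map_mul, map_pow, map_pow, φ_q, φ_L, ← φ_E,
      Polynomial.aeval_algHom_apply]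

theorem φ_inj {u : UU} (h : W.φ u = 0) : u = 0 := by
  obtain ⟨a, rfl⟩ := nu_surj u
  rw [φ_nu] at h
  rw [iv_inj (W.bij.1 (h.trans (map_zero _).symm)), map_zero]

/-- The invariants. -/
theorem inv_ex {z : D} (h : ∀ c, W.l c * z = z * W.l c) : ∃ u, z = W.φ u := by
  obtain ⟨p, rfl⟩ := W.bij.2 z
  obtain ⟨a, rfl⟩ := fft0L (f := p) fun n => W.bij.1 (by
    rw [← ln_no, ln_br, h, h, h]; simp)
  exact ⟨nu a, (W.φ_nu a).symm⟩

theorem mid_ex (c : TT) : ∃ u, ∀ a b, W.x a * W.φ (nu c) * W.d b - W.x b * W.φ (nu c) * W.d a =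
    W.φ u * (W.x a * W.d b - W.x b * W.d a) := by
  induction c using MvPolynomial.induction_on' with
  | add c e hc he =>
    obtain ⟨u, hu⟩ := hc
    obtain ⟨v, hv⟩ := he
    refine ⟨u + v, fun a b => ?_⟩
    rw [map_add, map_add, map_add, add_mul (W.φ u), ← hu, ← hv]
    noncomm_ring
  | monomial α c =>
    refine ⟨c • (UU.q ^ α 0 * Polynomial.aeval (UU.E - 1) (descPochhammer ℂ (α 1)) * UU.L ^ α 2),
      fun a b => ?_⟩
    have e1 : ∀ a, W.x a * W.q ^ α 0 = W.q ^ α 0 * W.x a := fun a =>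
      (Commute.pow_right (show Commute (W.x a) W.q by rw [← W.φ_q]; exact (W.vec a).xq) _)
    have e2 : ∀ a, W.L ^ α 2 * W.d a = W.d a * W.L ^ α 2 := fun a =>
      (Commute.pow_right (show Commute (W.d a) W.L by rw [← W.φ_L]; exact (W.vec a).dL) _).symm
    have e3 : W.L ^ α 2 * (W.x a * W.d b - W.x b * W.d a) =
        (W.x a * W.d b - W.x b * W.d a) * W.L ^ α 2 := by
      refine (Commute.pow_right (show Commute (W.x a * W.d b - W.x b * W.d a) W.L from ?_) _).symm
      have xa := (W.vec a).xL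
      have xb := (W.vec b).xL
      have da := (W.vec a).dL
      have db := (W.vec b).dL
      rw [φ_L] at xa xb da db
      change _ = _
      rw [sub_mul, mul_assoc, mul_assoc, da, db, ← mul_assoc, ← mul_assoc, xa, xb, sub_mul, sub_mul,
        mul_assoc 2, mul_assoc 2, W.dd a b]
      noncomm_ring
    have e4 : W.φ (Polynomial.aeval (UU.E - 1) (descPochhammer ℂ (α 1))) =
        Polynomial.aeval (W.E - 1) (descPochhammer ℂ (α 1)) := by
      rw [← Polynomial.aeval_algHom_apply, map_sub, map_one, φ_E]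
    have e5 : W.φ (Polynomial.aeval UU.E (descPochhammer ℂ (α 1))) =
        Polynomial.aeval W.E (descPochhammer ℂ (α 1)) := by
      rw [← Polynomial.aeval_algHom_apply, φ_E]
    have e6 : ∀ a b, W.x a * (W.q ^ α 0 * Polynomial.aeval W.E (descPochhammer ℂ (α 1)) *
        W.L ^ α 2) * W.d b = W.q ^ α 0 * Polynomial.aeval (W.E - 1) (descPochhammer ℂ (α 1)) *
        (W.x a * W.d b * W.L ^ α 2) := fun a b => by
      rw [← mul_assoc, ← mul_assoc, e1, mul_assoc _ (W.L ^ α 2), e2, mul_assoc _ (W.x a), x_f]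
      simp only [mul_assoc]
    simp only [nu_mon, map_smul, map_mul, map_pow, φ_q, φ_L, e4, e5, mul_smul_comm, smul_mul_assoc,
      e6]
    rw [mul_assoc _ (W.L ^ α 2), e3, ← smul_sub, ← mul_sub, ← sub_mul]

variable {W} in
/-- The covariants. -/
theorem Cov.ex {v : Fin 3 → D} (h : W.Cov v) :
    ∃ a b c, ∀ s, v s = W.φ a * W.x s + W.φ b * W.d s + W.φ c * W.l s := by
  choose p hp using fun s => W.bij.2 (v s)
  obtain ⟨a, b, c, rfl⟩ := fft1L (v := p) fun n => funext fun s => W.bij.1 (by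
    rw [Function.comp_apply, ← ln_no, map_crs]
    simp only [hp]
    exact h.ln n s)
  obtain ⟨a1, a2, a3, a4, e⟩ := vec_mul (nu a)
  obtain ⟨u, hu⟩ := W.mid_ex c
  refine ⟨a1, a2 + nu b, u, fun s => ?_⟩
  have e3 : ∀ i j, W.no (iv c * (xv i * kv j - xv j * kv i)) =
      W.φ u * (W.x i * W.d j - W.x j * W.d i) := fun i j => by
    rw [← hu, φ_nu, mul_sub, map_sub, ← mul_assoc, ← mul_assoc, W.no_d, W.no_d, mul_comm (iv c),
      mul_comm (iv c), W.no_x, W.no_x]
  have e4 : W.no (iv c * (xv ⨯₃ kv) s) = W.φ u * W.l s :=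
    all3 (P := fun s => W.no (iv c * (xv ⨯₃ kv) s) = W.φ u * W.l s) (e3 1 2) (e3 2 0) (e3 0 1) s
  rw [← hp]
  simp only [Pi.add_apply, Pi.smul_apply, smul_eq_mul, map_add]
  have e5 := (e D W.φ _ _ (W.vec s)).1
  rw [e4, W.no_d, mul_comm (iv a), W.no_x, ← φ_nu, ← φ_nu, e5]
  noncomm_ring

theorem l_reg {c : UU} (h : ∀ s, W.φ c * W.l s = 0) : c = 0 := reg (W.φ_inj (by
  rw [map_mul, ← l_l]
  simp only [mul_add, ← mul_assoc, h, zero_mul, add_zero]))

theorem dot_l (a b c : UU) : (W.φ a * W.x 0 + W.φ b * W.d 0 + W.φ c * W.l 0) * W.l 0 +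
    (W.φ a * W.x 1 + W.φ b * W.d 1 + W.φ c * W.l 1) * W.l 1 +
    (W.φ a * W.x 2 + W.φ b * W.d 2 + W.φ c * W.l 2) * W.l 2 = W.φ (c * UU.Om) := by
  have e : W.φ (c * UU.Om) = W.φ a * (W.x 0 * W.l 0 + W.x 1 * W.l 1 + W.x 2 * W.l 2) +
      W.φ b * (W.d 0 * W.l 0 + W.d 1 * W.l 1 + W.d 2 * W.l 2) +
      W.φ c * (W.l 0 * W.l 0 + W.l 1 * W.l 1 + W.l 2 * W.l 2) := by
    rw [x_l, d_l, l_l, map_mul, mul_zero, mul_zero, zero_add, zero_add]
  rw [e]
  noncomm_ring

/-- The covariants are free. -/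
theorem free {a b c : UU} (h : ∀ s, W.φ a * W.x s + W.φ b * W.d s + W.φ c * W.l s = 0) :
    a = 0 ∧ b = 0 ∧ c = 0 := by
  have hc : c = 0 := reg (W.φ_inj (by rw [← W.dot_l a b c, h, h, h]; simp))
  simp only [hc, map_zero, zero_mul, add_zero] at h
  have e := mf_inj (a := a) (b := -b) (sub_eq_zero.1 (W.φ_inj ?_)) (sub_eq_zero.1 (W.φ_inj ?_))
  · exact ⟨e.1, neg_eq_zero.1 e.2, hc⟩
  · have : W.φ (a * UU.E - -b * UU.L) = (W.φ a * W.x 0 + W.φ b * W.d 0) * W.d 0 +
        (W.φ a * W.x 1 + W.φ b * W.d 1) * W.d 1 + (W.φ a * W.x 2 + W.φ b * W.d 2) * W.d 2 := by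
      simp only [map_sub, map_mul, map_neg, φ_E, φ_L, E, L]
      noncomm_ring
    rw [this, h, h, h]; simp
  · have : W.φ (a * UU.q - -b * (UU.E + 3)) = (W.φ a * W.x 0 + W.φ b * W.d 0) * W.x 0 +
        (W.φ a * W.x 1 + W.φ b * W.d 1) * W.x 1 + (W.φ a * W.x 2 + W.φ b * W.d 2) * W.x 2 := by
      simp only [map_sub, map_mul, map_neg, map_add, map_ofNat, φ_E, φ_q, ← d_x, q]
      noncomm_ring
    rw [this, h, h, h]; simp

end WY

/-- The symbols, with the momenta as outer variables. -/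
def sy : PP ≃ₐ[ℂ] MvPolynomial (Fin 3) (MvPolynomial (Fin 3) ℂ) :=
  (renameEquiv ℂ (Equiv.sumComm _ _)).trans (sumAlgEquiv ℂ (Fin 3) (Fin 3))

theorem sy_x (a : Fin 3) : sy (xv a) = C (X a) := by simp [sy, xv]

theorem sy_k (a : Fin 3) : sy (kv a) = X a := by simp [sy, kv]

/-- The partial derivatives. -/
abbrev pd3 : Fin 3 → Derivation ℂ (MvPolynomial (Fin 3) ℂ) (MvPolynomial (Fin 3) ℂ) :=
  fun a => pderiv a

theorem pd3_cm : DO.Cm pd3 := fun k l p => by
  induction p using MvPolynomial.induction_on with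
  | C z => simp
  | add p q hp hq => simp only [map_add, hp, hq]
  | mul_X p b hp =>
    have e : ∀ k l : Fin 3, pderiv k (pderiv l (X b : MvPolynomial (Fin 3) ℂ)) = 0 := fun k l => by
      rw [pderiv_X, Pi.single_apply]
      split_ifs <;> simp
    simp only [Derivation.leibniz, map_add, e, hp, smul_eq_mul]
    ring

/-- The Weyl algebra in three variables. -/
def w3 : WY (DO pd3) where
  x a := DO.of pd3 (X a)
  d a := DO.D pd3 a
  no := ((DO.no pd3).restrictScalars ℂ).comp sy.toLinearMap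
  xx a b := DO.of_of _ _
  dd a b := DO.D_D _ _
  dx a b := (DO.D_of _ _).trans (by
    rw [pderiv_X, Pi.single_apply, apply_ite (DO.of pd3), map_one, map_zero]
    simp only [eq_comm])
  no_one := (congrArg (DO.no pd3) (map_one sy)).trans DO.no_one
  no_x a p := (congrArg (DO.no pd3) ((map_mul sy _ _).trans (by rw [sy_x]))).trans
    (DO.no_C_mul (X a) (sy p))
  no_d a p := (congrArg (DO.no pd3) ((map_mul sy _ _).trans (by rw [sy_k]))).trans
    (DO.no_mul_X (sy p) a)
  bij := (DO.pbw pd3_cm).bijective.comp sy.bijective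

end

end Vale.Agent.P286E38
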