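import Vale.Agent.P286E38.Gp
import Vale.Agent.P286E57.Plus
import Vale.Agent.P286EP.Plus

/-!
The block of the trivial representation.
-/

set_option autoImplicit false
set_option linter.all false

namespace Vale.Agent.P286E38

open Vale.Agent.P286EI Vale.Agent.P286EX Vale.Agent.P286EA2

theorem plus_triv {G : Vale.Agent.P286E.Grp} (K : GK G) : PLUS (AU (P286EXR.triv K)) :=
  P286E57.plus_of (gP K) (gP_morH K) (gP_e K) P286EP.plus_B0

end Vale.Agent.P286E38
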