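import Mathlib

/-!
The enveloping algebra generated by the square of the radius, the Euler field and the Laplacian.
-/

set_option autoImplicit false
set_option linter.all false

namespace Vale.Agent.P286E38

open Polynomial

noncomputable section

variable {A B : Type} [Ring A] [Algebra ℂ A] [Ring B] [Algebra ℂ B]

/-- A triple. -/
structure Tri (q E L : A) : Prop where
  eq : E * q = q * (E + 2)
  le : L * E = (E + 2) * L
  lq : L * q = q * L + 4 * E + 6

/-- The relations. -/
inductive URel : FreeAlgebra ℂ (Fin 3) → FreeAlgebra ℂ (Fin 3) → Prop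
  | a : URel (.ι ℂ 1 * .ι ℂ 0) (.ι ℂ 0 * (.ι ℂ 1 + 2))
  | b : URel (.ι ℂ 2 * .ι ℂ 1) ((.ι ℂ 1 + 2) * .ι ℂ 2)
  | c : URel (.ι ℂ 2 * .ι ℂ 0) (.ι ℂ 0 * .ι ℂ 2 + 4 * .ι ℂ 1 + 6)

/-- The universal algebra. -/
def UU : Type := RingQuot URel

theorem aeval_mul {a b u : A} (h : a * u = u * b) (f : ℂ[X]) : aeval a f * u = u * aeval b f := by
  induction f using Polynomial.induction_on with
  | C c => rw [aeval_C, aeval_C, Algebra.commutes]
  | add f g hf hg => rw [map_add, map_add, add_mul, mul_add, hf, hg]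
  | monomial n c ih =>
    rw [pow_succ, ← mul_assoc, map_mul, map_mul (aeval b), aeval_X, aeval_X, mul_assoc, h,
      ← mul_assoc, ih, mul_assoc]

theorem two_c (a : A) : 2 * a = a * 2 := (two_mul a).trans (mul_two a).symm

/-- The Casimir element. -/
def cas (q E L : A) : A := q * L - E * (E + 1)

namespace Tri

variable {q E L : A} (h : Tri q E L)

include h

theorem cas_E : cas q E L * E = E * cas q E L := by
  rw [cas, sub_mul, mul_sub, mul_assoc, h.le, ← mul_assoc, ← h.eq]
  noncomm_ring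

theorem lq' : L * q = cas q E L + (E + 2) * (E + 3) := by
  rw [h.lq, cas]; noncomm_ring; norm_num

theorem ql : q * L = cas q E L + E * (E + 1) := (sub_add_cancel _ _).symm

theorem cas_q : cas q E L * q = q * cas q E L := by
  have e : E * (E + 1) * q = q * ((E + 2) * (E + 3)) := by
    rw [mul_assoc, add_mul, one_mul, h.eq, mul_add, ← mul_assoc, h.eq]
    noncomm_ring
  conv_lhs => rw [cas, sub_mul, mul_assoc, h.lq', e, mul_add, add_sub_cancel_right]

theorem cas_L : cas q E L * L = L * cas q E L := by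
  have e : L * (E * (E + 1)) = (E + 2) * (E + 3) * L := by
    rw [← mul_assoc, h.le, mul_assoc, mul_add L, h.le]
    noncomm_ring
  conv_rhs => rw [cas, mul_sub, ← mul_assoc, h.lq', e, add_mul, add_sub_cancel_right]

theorem E_qp (i : ℕ) : E * q ^ i = q ^ i * (E + 2 * i) := by
  induction i with
  | zero => simp
  | succ i ih =>
    rw [pow_succ', ← mul_assoc, h.eq, mul_assoc, add_mul, ih, mul_assoc, Nat.cast_succ,
      two_c (q ^ i), ← mul_add]
    noncomm_ring

theorem E_Lp (i : ℕ) : E * L ^ i = L ^ i * (E - 2 * i) := by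
  induction i with
  | zero => simp
  | succ i ih =>
    have e : E * L = L * (E - 2) := by
      rw [mul_sub, h.le, add_mul, two_c L, add_sub_cancel_right]
    rw [pow_succ', ← mul_assoc, e, mul_assoc, sub_mul, ih, mul_assoc, Nat.cast_succ,
      two_c (L ^ i), ← mul_sub]
    noncomm_ring

end Tri

namespace UU

instance : Ring UU := inferInstanceAs (Ring (RingQuot URel))

instance : Algebra ℂ UU := inferInstanceAs (Algebra ℂ (RingQuot URel))

/-- The projection. -/
def mk : FreeAlgebra ℂ (Fin 3) →ₐ[ℂ] UU := RingQuot.mkAlgHom ℂ _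

theorem mk_rel {x y} (h : URel x y) : mk x = mk y := RingQuot.mkAlgHom_rel ℂ h

/-- The square of the radius. -/
def q : UU := mk (.ι ℂ 0)

/-- The Euler field. -/
def E : UU := mk (.ι ℂ 1)

/-- The Laplacian. -/
def L : UU := mk (.ι ℂ 2)

theorem tri : Tri q E L :=
  ⟨by simpa only [q, E, L, map_mul, map_add, map_ofNat] using mk_rel .a,
    by simpa only [q, E, L, map_mul, map_add, map_ofNat] using mk_rel .b,
    by simpa only [q, E, L, map_mul, map_add, map_ofNat] using mk_rel .c⟩

/-- The Casimir element. -/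
def Om : UU := cas q E L

section

variable {q' E' L' : A} (h : Tri q' E' L')

/-- The universal property. -/
def lift : UU →ₐ[ℂ] A :=
  RingQuot.liftAlgHom ℂ ⟨FreeAlgebra.lift ℂ ![q', E', L'], fun _ _ r => by
    cases r <;> simp only [map_add, map_mul, map_ofNat, FreeAlgebra.lift_ι_apply]
    exacts [h.eq, h.le, h.lq]⟩

theorem lift_q : lift h q = q' :=
  (RingQuot.liftAlgHom_mkAlgHom_apply ℂ _ _ _).trans (FreeAlgebra.lift_ι_apply _ _)

theorem lift_E : lift h E = E' :=
  (RingQuot.liftAlgHom_mkAlgHom_apply ℂ _ _ _).trans (FreeAlgebra.lift_ι_apply _ _)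

theorem lift_L : lift h L = L' :=
  (RingQuot.liftAlgHom_mkAlgHom_apply ℂ _ _ _).trans (FreeAlgebra.lift_ι_apply _ _)

theorem lift_Om : lift h Om = cas q' E' L' := by
  simp only [Om, cas, map_sub, map_mul, map_add, map_one, lift_q, lift_E, lift_L]

end

theorem ind {P : UU → Prop} (h0 : ∀ c, P (algebraMap ℂ UU c)) (hq : P q) (hE : P E) (hL : P L)
    (add : ∀ x y, P x → P y → P (x + y)) (mul : ∀ x y, P x → P y → P (x * y)) (x : UU) : P x := by
  obtain ⟨x, rfl⟩ : ∃ y, mk y = x := RingQuot.mkAlgHom_surjective ℂ _ x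
  induction x using FreeAlgebra.induction with
  | grade0 c => rw [AlgHom.commutes]; exact h0 _
  | grade1 s => fin_cases s; exacts [hq, hE, hL]
  | mul x y hx hy => rw [map_mul]; exact mul _ _ hx hy
  | add x y hx hy => rw [map_add]; exact add _ _ hx hy

theorem eq_top {S : Submodule ℂ UU} (h1 : 1 ∈ S) (hq : ∀ x ∈ S, q * x ∈ S)
    (hE : ∀ x ∈ S, E * x ∈ S) (hL : ∀ x ∈ S, L * x ∈ S) (u : UU) : u ∈ S := by
  suffices h : ∀ x ∈ S, u * x ∈ S by simpa using h 1 h1
  induction u using ind with
  | h0 c => intro x hx; rw [← Algebra.smul_def]; exact S.smul_mem c hx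
  | hq => exact hq
  | hE => exact hE
  | hL => exact hL
  | add a b ha hb => intro x hx; rw [add_mul]; exact S.add_mem (ha x hx) (hb x hx)
  | mul a b ha hb => intro x hx; rw [mul_assoc]; exact ha _ (hb x hx)

theorem cen {f : UU →ₐ[ℂ] A} {z : A} (hq : z * f q = f q * z) (hE : z * f E = f E * z)
    (hL : z * f L = f L * z) (u : UU) : z * f u = f u * z := by
  induction u using ind with
  | h0 c => rw [AlgHom.commutes, Algebra.commutes]
  | hq => exact hq
  | hE => exact hE
  | hL => exact hL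
  | add a b ha hb => rw [map_add, add_mul, mul_add, ha, hb]
  | mul a b ha hb => rw [map_mul, ← mul_assoc, ha, mul_assoc, hb, mul_assoc]

theorem Om_comm (u : UU) : Om * u = u * Om :=
  cen (f := AlgHom.id ℂ UU) tri.cas_q tri.cas_E tri.cas_L u

/-- Polynomials in the Euler field and the Casimir element. -/
def ev : ℂ[X][X] →ₐ[ℂ] UU := eval₂AlgHom (aeval E) Om fun _ => (Om_comm _).symm

theorem ev_s : ev (C X) = E := (eval₂_C _ _).trans (aeval_X _)

theorem ev_w : ev X = Om := eval₂_X _ _

/-- The weight vectors. -/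
def mo : ℤ → UU
  | .ofNat i => q ^ i
  | .negSucc k => L ^ (k + 1)

/-- The normal forms. -/
def nf : (ℤ →₀ ℂ[X][X]) →ₗ[ℂ] UU :=
  Finsupp.lsum ℂ fun n => (LinearMap.mulLeft ℂ (mo n)).comp ev.toLinearMap

theorem nf_single (n : ℤ) (f : ℂ[X][X]) : nf (Finsupp.single n f) = mo n * ev f :=
  Finsupp.lsum_single _ _ _ _

theorem nf_surj (u : UU) : ∃ F, nf F = u := by
  have m : ∀ n f, mo n * ev f ∈ LinearMap.range nf := fun n f => ⟨_, nf_single n f⟩
  have hq : ∀ i f, q ^ i * ev f ∈ LinearMap.range nf := fun i f => m (.ofNat i) f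
  have hL : ∀ i f, L ^ i * ev f ∈ LinearMap.range nf := fun i f => by
    rcases i with _ | i
    · simpa using hq 0 f
    · exact m (.negSucc i) f
  have k : ∀ a : UU, (∀ n f, a * (mo n * ev f) ∈ LinearMap.range nf) →
      ∀ x ∈ LinearMap.range nf, a * x ∈ LinearMap.range nf := by
    rintro a ha _ ⟨F, rfl⟩
    induction F using Finsupp.induction_linear with
    | zero => simp
    | add F G hF hG => rw [map_add, mul_add]; exact add_mem hF hG
    | single n f => rw [nf_single]; exact ha n f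
  have hE := k E fun n f => by
    rcases n with i | i
    · have := hq i ((C X + 2 * (i : ℂ[X][X])) * f)
      rwa [map_mul, map_add, map_mul, map_ofNat, map_natCast, ev_s, ← mul_assoc, ← tri.E_qp,
        mul_assoc] at this
    · have := hL (i + 1) ((C X - 2 * ((i + 1 : ℕ) : ℂ[X][X])) * f)
      rwa [map_mul, map_sub, map_mul, map_ofNat, map_natCast, ev_s, ← mul_assoc, ← tri.E_Lp,
        mul_assoc] at this
  have hO := k Om fun n f => by
    have := m n (X * f)
    rwa [map_mul, ev_w, ← mul_assoc, ← Om_comm, mul_assoc] at this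
  have hn : ∀ (c : ℕ), ∀ x ∈ LinearMap.range nf, (E + c) * x ∈ LinearMap.range nf := fun c x hx => by
    rw [add_mul, ← nsmul_eq_mul]
    exact add_mem (hE x hx) (nsmul_mem hx c)
  refine eq_top (S := LinearMap.range nf) (by simpa using hq 0 1) (k q fun n f => ?_) hE
    (k L fun n f => ?_) u
  · rcases n with i | i
    · rw [mo, ← mul_assoc, ← pow_succ']; exact hq _ f
    · rw [mo, pow_succ', mul_assoc, ← mul_assoc, tri.ql, add_mul, mul_assoc]
      exact add_mem (hO _ (hL i f)) (hE _ (by simpa using hn 1 _ (hL i f)))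
  · rcases n with (_ | i) | i
    · simpa [mo] using hL 1 f
    · rw [mo, pow_succ', mul_assoc, ← mul_assoc, tri.lq', add_mul, mul_assoc]
      exact add_mem (hO _ (hq i f)) (hn 2 _ (hn 3 _ (hq i f)))
    · rw [mo, ← mul_assoc, ← pow_succ']; exact hL _ f

end UU

section Rep

variable {P : Type} [CommRing P] [Algebra ℂ P]

/-- A weighted shift. -/
def sh (k : ℤ) (c : ℤ → P) : Module.End ℂ (ℤ → P) where
  toFun v n := c n * v (n + k)
  map_add' v w := funext fun n => mul_add _ _ _
  map_smul' a v := funext fun n => mul_smul_comm _ _ _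

theorem sh_apply (k : ℤ) (c v : ℤ → P) (n : ℤ) : sh k c v n = c n * v (n + k) := rfl

theorem sh_single (k : ℤ) (c : ℤ → P) (m : ℤ) (g : P) :
    sh k c (Pi.single (m + k) g) = Pi.single m (c m * g) := funext fun n => by
  rw [sh_apply, Pi.single_apply, Pi.single_apply]
  by_cases h : n = m
  · rw [if_pos h, if_pos (by rw [h]), h]
  · rw [if_neg h, if_neg (by simpa using h), mul_zero]

/-- The coefficient of the Laplacian. -/
def cc (s w : P) (n : ℤ) : P := w + (s + 2 * n + 2) * (s + 2 * n + 3)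

theorem rep_tri (s w : P) :
    Tri (sh (-1) fun _ => (1 : P)) (sh 0 fun n => s + 2 * n) (sh 1 (cc s w)) := by
  refine ⟨?_, ?_, ?_⟩ <;> ext1 v <;> funext n <;>
    simp only [Module.End.mul_apply, LinearMap.add_apply, Module.End.ofNat_apply, sh_apply,
      Pi.add_apply, Pi.smul_apply, map_add, map_nsmul, cc, add_zero,
      add_neg_cancel_right, neg_add_cancel_right] <;> simp only [nsmul_eq_mul] <;>
    push_cast <;> ring

/-- The representation on sequences. -/
def rep (s w : P) : UU →ₐ[ℂ] Module.End ℂ (ℤ → P) := UU.lift (rep_tri s w)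

theorem rep_Om (s w : P) (v : ℤ → P) (n : ℤ) : rep s w UU.Om v n = w * v n := by
  rw [rep, UU.lift_Om]
  simp only [cas, Module.End.mul_apply, LinearMap.add_apply, LinearMap.sub_apply,
    Module.End.one_apply, sh_apply, Pi.add_apply, Pi.sub_apply, cc, add_zero, neg_add_cancel_right]
  push_cast
  ring

theorem rep_ev (χ : ℂ[X][X] →ₐ[ℂ] P) (f : ℂ[X][X]) (g : P) :
    rep (χ (C X)) (χ X) (UU.ev f) (Pi.single 0 g) = Pi.single 0 (χ f * g) := by
  have hm : ∀ a b : ℂ[X][X],
      (∀ g, rep (χ (C X)) (χ X) (UU.ev a) (Pi.single 0 g) = Pi.single 0 (χ a * g)) →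
      (∀ g, rep (χ (C X)) (χ X) (UU.ev b) (Pi.single 0 g) = Pi.single 0 (χ b * g)) →
      ∀ g, rep (χ (C X)) (χ X) (UU.ev (a * b)) (Pi.single 0 g) = Pi.single 0 (χ (a * b) * g) :=
    fun a b ha hb g => by rw [map_mul, map_mul, Module.End.mul_apply, hb, ha, map_mul, mul_assoc]
  have ha : ∀ a b : ℂ[X][X],
      (∀ g, rep (χ (C X)) (χ X) (UU.ev a) (Pi.single 0 g) = Pi.single 0 (χ a * g)) →
      (∀ g, rep (χ (C X)) (χ X) (UU.ev b) (Pi.single 0 g) = Pi.single 0 (χ b * g)) →
      ∀ g, rep (χ (C X)) (χ X) (UU.ev (a + b)) (Pi.single 0 g) = Pi.single 0 (χ (a + b) * g) :=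
    fun a b ha hb g => by
      rw [map_add, map_add, LinearMap.add_apply, hb, ha, map_add, add_mul, Pi.single_add]
  revert g
  induction f using Polynomial.induction_on with
  | C a =>
    induction a using Polynomial.induction_on with
    | C c =>
      intro g
      rw [show (C (C c) : ℂ[X][X]) = algebraMap ℂ _ c from rfl, AlgHom.commutes, AlgHom.commutes,
        AlgHom.commutes, Module.algebraMap_end_apply, ← Algebra.smul_def, Pi.single_smul]
    | add a b h1 h2 => rw [map_add]; exact ha _ _ h1 h2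
    | monomial n c ih =>
      rw [pow_succ, ← mul_assoc, map_mul]
      refine hm _ _ ih fun g => ?_
      have := sh_single 0 (fun n : ℤ => χ (C X) + 2 * n) 0 g
      rw [UU.ev_s, rep, UU.lift_E]
      simpa using this
  | add a b h1 h2 => exact ha _ _ h1 h2
  | monomial n a ih =>
    rw [pow_succ, ← mul_assoc]
    refine hm _ _ ih fun g => funext fun n => ?_
    rw [UU.ev_w, rep_Om, Pi.single_apply, Pi.single_apply, mul_ite, mul_zero]

theorem rep_mo [IsDomain P] {s w : P} (h : ∀ n, cc s w n ≠ 0) (n : ℤ) :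
    ∃ k : P, k ≠ 0 ∧ ∀ g, rep s w (UU.mo n) (Pi.single 0 g) = Pi.single n (k * g) := by
  have e : ∀ i : ℕ, ∃ k : P, k ≠ 0 ∧
      ∀ g, rep s w (UU.L ^ i) (Pi.single 0 g) = Pi.single (-i : ℤ) (k * g) := fun i => by
    induction i with
    | zero => exact ⟨1, one_ne_zero, fun g => by simp⟩
    | succ i ih =>
      obtain ⟨k, hk, e⟩ := ih
      refine ⟨cc s w (-(i + 1 : ℕ)) * k, mul_ne_zero (h _) hk, fun g => ?_⟩
      rw [pow_succ', map_mul, Module.End.mul_apply, e, rep, UU.lift_L, mul_assoc, ← sh_single 1]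
      congr 2
      push_cast
      ring
  rcases n with i | i
  · refine ⟨1, one_ne_zero, fun g => ?_⟩
    rw [one_mul, UU.mo]
    induction i with
    | zero => simp
    | succ i ih =>
      have := sh_single (-1) (fun _ => (1 : P)) (Int.ofNat (i + 1)) g
      rw [pow_succ', map_mul, Module.End.mul_apply, ih, rep, UU.lift_q, ← one_mul g, ← this,
        one_mul]
      congr 2
      simp
  · exact e (i + 1)

theorem rep_nf [IsDomain P] (χ : ℂ[X][X] →ₐ[ℂ] P) (h : ∀ n, cc (χ (C X)) (χ X) n ≠ 0) :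
    ∃ k : ℤ → P, (∀ n, k n ≠ 0) ∧ ∀ F n,
      rep (χ (C X)) (χ X) (UU.nf F) (Pi.single 0 1) n = k n * χ (F n) := by
  choose k hk e using rep_mo h
  refine ⟨k, hk, fun F n => ?_⟩
  induction F using Finsupp.induction_linear with
  | zero => simp
  | add F G hF hG =>
    rw [map_add, map_add, LinearMap.add_apply, Pi.add_apply, hF, hG, Finsupp.add_apply, map_add,
      mul_add]
  | single m f =>
    rw [UU.nf_single, map_mul, Module.End.mul_apply, rep_ev, e, mul_one, Pi.single_apply,
      Finsupp.single_apply]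
    by_cases r : n = m
    · rw [if_pos r, if_pos r.symm, r]
    · rw [if_neg r, if_neg (Ne.symm r), map_zero, mul_zero]

end Rep

theorem cc_ne (n : ℤ) : cc (X : ℂ[X]) 0 n ≠ 0 := by
  have e : ∀ c : ℂ, (X + C c : ℂ[X]) ≠ 0 := fun c => (monic_X_add_C c).ne_zero
  rw [cc, zero_add]
  refine mul_ne_zero ?_ ?_
  · simpa only [add_assoc, map_add, map_mul, map_ofNat, map_intCast] using e (2 * n + 2)
  · simpa only [add_assoc, map_add, map_mul, map_ofNat, map_intCast] using e (2 * n + 3)

/-- The constant term. -/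
def c0 : ℂ[X][X] →ₐ[ℂ] ℂ[X] := (aeval (0 : ℂ[X])).restrictScalars ℂ

theorem c0_s : c0 (C X) = X := aeval_C _ _

theorem c0_w : c0 X = 0 := aeval_X _

/-- The Casimir element is not a zero divisor. -/
theorem reg {u : UU} (h : u * UU.Om = 0) : u = 0 := by
  obtain ⟨F, rfl⟩ := UU.nf_surj u
  obtain ⟨k, hk, e⟩ := rep_nf (AlgHom.id ℂ ℂ[X][X]) fun n z => cc_ne n (by
    have := congrArg c0 z
    simpa only [cc, map_add, map_mul, map_ofNat, map_intCast, map_zero, AlgHom.id_apply, c0_s,
      c0_w] using this)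
  have z : F = 0 := Finsupp.ext fun n => by
    have := congrArg (fun a => rep (C X : ℂ[X][X]) X a (Pi.single 0 1) n)
      ((UU.Om_comm _).trans h)
    simp only [map_mul, Module.End.mul_apply, rep_Om, map_zero, LinearMap.zero_apply,
      Pi.zero_apply] at this
    exact (mul_eq_zero.1 ((e F n).symm.trans
      ((mul_eq_zero.1 this).resolve_left X_ne_zero))).resolve_left (hk n)
  rw [z, map_zero]

theorem ker_rep {u : UU} (h : rep (X : ℂ[X]) 0 u = 0) : ∃ v, u = v * UU.Om := by
  obtain ⟨F, rfl⟩ := UU.nf_surj u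
  obtain ⟨k, hk, e⟩ := rep_nf c0 (by rw [c0_s, c0_w]; exact cc_ne)
  rw [c0_s, c0_w] at e
  have z : ∀ n, X ∣ F n := fun n => X_dvd_iff.2 (by
    have := e F n
    rw [h] at this
    rw [coeff_zero_eq_aeval_zero]
    exact (mul_eq_zero.1 this.symm).resolve_left (hk n))
  have : UU.nf F ∈ LinearMap.range (LinearMap.mulRight ℂ UU.Om) := by
    rw [← F.sum_single, Finsupp.sum, map_sum]
    refine Submodule.sum_mem _ fun n _ => ?_
    obtain ⟨g, hg⟩ := z n
    exact ⟨UU.mo n * UU.ev g, by
      rw [UU.nf_single, hg, mul_comm X, map_mul UU.ev, UU.ev_w, ← mul_assoc]; rfl⟩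
  obtain ⟨v, hv⟩ := this
  exact ⟨v, hv.symm⟩

section Line

variable {t d : A} (h : d * t = t * d + 1)

include h in
theorem line_tri : Tri (t * t) (t * d - 1) (d * d) := by
  have e : ∀ z, d * (t * z) = t * (d * z) + z := fun z => by
    rw [← mul_assoc, h, add_mul, one_mul, mul_assoc]
  refine ⟨?_, ?_, ?_⟩ <;>
    simp only [sub_mul, mul_sub, add_mul, mul_add, mul_assoc, e, h, mul_one, one_mul] <;>
    noncomm_ring
  norm_num

/-- The map to the even operators on the line. -/
def p0 : UU →ₐ[ℂ] A := UU.lift (line_tri h)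

theorem p0_q : p0 h UU.q = t * t := UU.lift_q _

theorem p0_E : p0 h UU.E = t * d - 1 := UU.lift_E _

theorem p0_L : p0 h UU.L = d * d := UU.lift_L _

theorem p0_Om : p0 h UU.Om = 0 := by
  have e : ∀ z, d * (t * z) = t * (d * z) + z := fun z => by
    rw [← mul_assoc, h, add_mul, one_mul, mul_assoc]
  rw [p0, UU.lift_Om, cas]
  simp only [sub_mul, mul_sub, add_mul, mul_add, mul_assoc, e, h, mul_one, one_mul]
  noncomm_ring

/-- The coordinate, on sequences. -/
def sT : Module.End ℂ (ℤ → ℂ[X]) := sh (-1) fun _ => 1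

/-- The derivative, on sequences. -/
def sD : Module.End ℂ (ℤ → ℂ[X]) := sh 1 fun n => X + (n : ℂ[X]) + 2

theorem sD_sT : sD * sT = sT * sD + 1 := by
  ext1 v
  funext n
  simp only [sT, sD, Module.End.mul_apply, LinearMap.add_apply, Module.End.one_apply, sh_apply,
    Pi.add_apply, add_neg_cancel_right, neg_add_cancel_right]
  push_cast
  ring

/-- The kernel of the map to the operators on the line. -/
theorem ker_p0 (ρ : A →ₐ[ℂ] Module.End ℂ (ℤ → ℂ[X])) (ht : ρ t = sT) (hd : ρ d = sD) {u : UU}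
    (z : p0 h u = 0) : ∃ v, u = v * UU.Om := by
  have e : ∀ (u : UU) (v : ℤ → ℂ[X]),
      rep (X : ℂ[X]) 0 u (fun n => v (2 * n)) = fun n => ρ (p0 h u) v (2 * n) := fun u => by
    induction u using UU.ind with
    | h0 c => intro v; simp only [AlgHom.commutes, Module.algebraMap_end_apply]; rfl
    | hq =>
      intro v
      funext n
      rw [p0_q, map_mul, ht, rep, UU.lift_q]
      simp only [sT, Module.End.mul_apply, sh_apply, one_mul]
      congr 1
      ring
    | hE =>
      intro v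
      funext n
      rw [p0_E, map_sub, map_mul, map_one, ht, hd, rep, UU.lift_E]
      simp only [sT, sD, Module.End.mul_apply, LinearMap.sub_apply, Module.End.one_apply, sh_apply,
        Pi.sub_apply, add_zero, neg_add_cancel_right]
      push_cast
      ring
    | hL =>
      intro v
      funext n
      rw [p0_L, map_mul, hd, rep, UU.lift_L]
      simp only [sD, Module.End.mul_apply, sh_apply, cc]
      rw [show 2 * (n + 1) = 2 * n + 1 + 1 by ring]
      push_cast
      ring
    | add a b ha hb =>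
      intro v
      simp only [map_add, LinearMap.add_apply, ha, hb]
      rfl
    | mul a b ha hb =>
      intro v
      simp only [map_mul, Module.End.mul_apply, ha, hb]
  refine ker_rep (LinearMap.ext fun v => ?_)
  have := e u fun n => v (n / 2)
  simp only [z, map_zero, LinearMap.zero_apply, Pi.zero_apply, ne_eq, OfNat.ofNat_ne_zero,
    not_false_eq_true, Int.mul_ediv_cancel_left] at this
  exact this

include h in
theorem line_span (hi : ∀ P : A → Prop, (∀ c, P (algebraMap ℂ A c)) → P t → P d →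
    (∀ x y, P x → P y → P (x + y)) → (∀ x y, P x → P y → P (x * y)) → ∀ x, P x) (z : A) :
    ∃ a b c, z = p0 h a + (p0 h b * t + p0 h c * d) := by
  suffices k : ∀ y, (∃ a b c, y = p0 h a + (p0 h b * t + p0 h c * d)) →
      ∃ a b c, y * z = p0 h a + (p0 h b * t + p0 h c * d) by
    simpa using k 1 ⟨1, 0, 0, by simp⟩
  refine hi (fun z => ∀ y, (∃ a b c, y = p0 h a + (p0 h b * t + p0 h c * d)) →
      ∃ a b c, y * z = p0 h a + (p0 h b * t + p0 h c * d)) ?_ ?_ ?_ ?_ ?_ z
  · rintro r _ ⟨a, b, c, rfl⟩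
    exact ⟨r • a, r • b, r • c, by
      simp only [← Algebra.commutes, ← Algebra.smul_def, map_smul, smul_add, smul_mul_assoc]⟩
  · rintro _ ⟨a, b, c, rfl⟩
    refine ⟨b * UU.q + c * (UU.E + 2), a, 0, ?_⟩
    simp only [map_add, map_mul, map_ofNat, map_zero, p0_q, p0_E, add_mul, mul_assoc, h]
    noncomm_ring
  · rintro _ ⟨a, b, c, rfl⟩
    refine ⟨b * (UU.E + 1) + c * UU.L, 0, a, ?_⟩
    simp only [map_add, map_mul, map_one, map_zero, p0_L, p0_E]
    noncomm_ring
  · intro x y hx hy w hw
    obtain ⟨a, b, c, e⟩ := hx w hw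
    obtain ⟨a', b', c', e'⟩ := hy w hw
    refine ⟨a + a', b + b', c + c', ?_⟩
    rw [mul_add, e, e']
    simp only [map_add]
    noncomm_ring
  · intro x y hx hy w hw
    rw [← mul_assoc]
    exact hy _ (hx w hw)

end Line

/-- A pair of operators transforming like the coordinate and the derivative. -/
structure Vec (f : UU →ₐ[ℂ] A) (x d : A) : Prop where
  xq : x * f UU.q = f UU.q * x
  xE : x * f UU.E = (f UU.E - 1) * x
  xL : x * f UU.L = f UU.L * x - 2 * d
  dq : d * f UU.q = f UU.q * d + 2 * x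
  dE : d * f UU.E = (f UU.E + 1) * d
  dL : d * f UU.L = f UU.L * d

theorem vec_line {t d : A} (h : d * t = t * d + 1) : Vec (p0 h) t d := by
  have e : ∀ z, d * (t * z) = t * (d * z) + z := fun z => by
    rw [← mul_assoc, h, add_mul, one_mul, mul_assoc]
  refine ⟨?_, ?_, ?_, ?_, ?_, ?_⟩ <;>
    simp only [p0_q, p0_E, p0_L, sub_mul, mul_sub, add_mul, mul_add, mul_assoc, e, h, mul_one,
      one_mul] <;> noncomm_ring

theorem vec_mul (u : UU) : ∃ a b a' b' : UU, ∀ (A : Type) [Ring A] [Algebra ℂ A]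
    (f : UU →ₐ[ℂ] A) (x d : A), Vec f x d →
    x * f u = f a * x + f b * d ∧ d * f u = f a' * x + f b' * d := by
  induction u using UU.ind with
  | h0 c =>
    exact ⟨algebraMap ℂ _ c, 0, 0, algebraMap ℂ _ c, fun A _ _ f x d _ => by
      simp only [AlgHom.commutes, Algebra.commutes, map_zero, zero_mul, add_zero, zero_add,
        and_self]⟩
  | hq =>
    exact ⟨UU.q, 0, 2, UU.q, fun A _ _ f x d h => by
      simp only [h.xq, h.dq, map_zero, zero_mul, add_zero, map_ofNat, true_and]
      exact add_comm _ _⟩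
  | hE =>
    exact ⟨UU.E - 1, 0, 0, UU.E + 1, fun A _ _ f x d h => by
      simp only [h.xE, h.dE, map_zero, zero_mul, add_zero, zero_add, map_sub, map_add, map_one,
        and_self]⟩
  | hL =>
    exact ⟨UU.L, -2, 0, UU.L, fun A _ _ f x d h => by
      simp only [h.xL, h.dL, map_zero, zero_mul, zero_add, map_neg, map_ofNat, neg_mul,
        sub_eq_add_neg, and_self]⟩
  | add u v hu hv =>
    obtain ⟨a, b, a', b', e⟩ := hu
    obtain ⟨c, g, c', g', e'⟩ := hv
    refine ⟨a + c, b + g, a' + c', b' + g', fun A _ _ f x d h => ?_⟩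
    simp only [map_add, mul_add, add_mul, (e A f x d h).1, (e A f x d h).2, (e' A f x d h).1,
      (e' A f x d h).2]
    exact ⟨by abel, by abel⟩
  | mul u v hu hv =>
    obtain ⟨a, b, a', b', e⟩ := hu
    obtain ⟨c, g, c', g', e'⟩ := hv
    refine ⟨a * c + b * c', a * g + b * g', a' * c + b' * c', a' * g + b' * g',
      fun A _ _ f x d h => ?_⟩
    simp only [map_add, map_mul, ← mul_assoc, (e A f x d h).1, (e A f x d h).2]
    simp only [mul_add, add_mul, mul_assoc, (e' A f x d h).1, (e' A f x d h).2]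
    exact ⟨by abel, by abel⟩

/-- The matrix factorisation of the Casimir element, first half. -/
theorem mf_inj {a b : UU} (h1 : a * UU.E = b * UU.L) (h2 : a * UU.q = b * (UU.E + 3)) :
    a = 0 ∧ b = 0 := by
  have t := UU.tri
  refine ⟨reg ?_, reg ?_⟩
  · have e : a * UU.Om = a * UU.q * UU.L - a * UU.E * (UU.E + 1) := by
      rw [UU.Om, cas]; noncomm_ring
    rw [e, h1, h2, mul_assoc, mul_assoc, mul_add UU.L, t.le]
    noncomm_ring
  · have e : b * UU.Om = b * UU.L * UU.q - b * (UU.E + 3) * (UU.E + 2) := by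
      rw [mul_assoc, t.lq', UU.Om]; noncomm_ring
    rw [e, ← h1, ← h2, mul_assoc, t.eq]
    noncomm_ring

/-- The matrix factorisation of the Casimir element, second half. -/
theorem mf_ker {a b u v : UU} (h1 : a * (UU.E + 1) + b * UU.L = u * UU.Om)
    (h2 : a * UU.q + b * (UU.E + 2) = v * UU.Om) :
    a = v * UU.L - u * UU.E ∧ b = u * UU.q - v * (UU.E + 3) := by
  have t := UU.tri
  have l : UU.L * UU.q = UU.Om + (UU.E + 2) * (UU.E + 3) := t.lq'
  have r : UU.q * UU.L = UU.Om + UU.E * (UU.E + 1) := t.ql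
  refine ⟨sub_eq_zero.1 (reg ?_), sub_eq_zero.1 (reg ?_)⟩
  · have e : (a - (v * UU.L - u * UU.E)) * UU.Om =
        a * UU.Om - v * UU.Om * UU.L + u * UU.Om * UU.E := by
      rw [mul_assoc, mul_assoc, UU.Om_comm, UU.Om_comm]; noncomm_ring
    rw [e, ← h1, ← h2]
    simp only [add_mul, mul_assoc, r, t.le]
    noncomm_ring
  · have e : (b - (u * UU.q - v * (UU.E + 3))) * UU.Om =
        b * UU.Om - u * UU.Om * UU.q + v * UU.Om * (UU.E + 3) := by
      rw [mul_assoc, mul_assoc, UU.Om_comm, UU.Om_comm]; noncomm_ring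
    rw [e, ← h1, ← h2]
    simp only [add_mul, mul_assoc, l, t.eq]
    noncomm_ring

end

end Vale.Agent.P286E38
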